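import Vale.Agent.P159.TM.H519.Fat1b
import Vale.Agent.P159.TM.H179.Asm

/-!
Row IH of `Spec/I.lean`: `IH b` for `b > 0`.
-/

open Finset

namespace Vale.Agent.P159.TM.H519

open Vale.Agent.P159.TM.SpecI Vale.Agent.P159.TM.H179

/-- fatness in the letters of `TM/H179/Asm.lean` -/
theorem FAT_of_IVAR {b : ℝ} (hb : 0 < b) (hI : IVAR b) : FAT b hb.le := by
  classical
  obtain ⟨t, _, c₀, hc, h⟩ := fat_ivar hb hI
  refine ⟨t, c₀, hc, fun i => ?_⟩
  obtain ⟨k₀, hk₀, h1⟩ := h i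
  refine ⟨k₀, hk₀, fun k hk u j => ?_⟩
  have h2 := h1 k hk u j
  rw [Nat.cast_pow, Nat.cast_ofNat] at h2
  exact h2

/-- **row IH** -/
theorem ih_box {b : ℝ} (hb : 0 < b) : IH b := ih hb.le fun h => FAT_of_IVAR hb h

end Vale.Agent.P159.TM.H519
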