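import Vale.Agent.P159.TM.H519.Grow

/-!
Row IH. The abstract part of the comparison of the free box with the ring box, without small
activity: the second moment of the clusters which meet the set `R` is small, if the block
variances are almost maximal (`win`), the two point function is summable (`sus`) and the first
moment has the fatness property (`fat`).
-/

open Finset

set_option linter.unusedSectionVars false
set_option linter.unusedDecidableInType false

namespace Vale.Agent.P159.TM.H519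

open Vale.Agent.P159.TM.H60

variable {V E S : Type*} [Fintype V] [DecidableEq V] [Fintype E] [DecidableEq E] (σ : Sys V E S)

/-- the cluster of `u` meets `R` -/
def Mt (R : Finset V) (om : Finset E) (u : V) : Prop := ∃ r ∈ R, r ∈ clus σ.s σ.t om u

/-- the mass of the cluster of `u` in `A` -/
noncomputable def ms (A : Finset V) (om : Finset E) (u : V) (x : V → S) : ℝ :=
  ∑ v ∈ A, if v ∈ clus σ.s σ.t om u then |σ.D x v| else 0

/-- two point function -/
noncomputable def G2 (u v : V) : ℝ := ∑' x, σ.tot x * (σ.D x u * σ.D x v)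

variable {σ}

theorem ms_nonneg (A : Finset V) (om : Finset E) (u : V) (x : V → S) : 0 ≤ ms σ A om u x := by
  unfold ms
  refine Finset.sum_nonneg fun v _ => ?_
  split_ifs
  · exact abs_nonneg _
  · exact le_rfl

theorem ms_le_nD (A : Finset V) (om : Finset E) (u : V) (x : V → S) : ms σ A om u x ≤ nD σ x := by
  unfold ms nD
  refine (Finset.sum_le_sum (g := fun v => |σ.D x v|) fun v _ => ?_).trans
    (Finset.sum_le_sum_of_subset_of_nonneg (Finset.subset_univ _) fun v _ _ => abs_nonneg _)
  split_ifs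
  · exact le_rfl
  · exact abs_nonneg _

theorem Gr.ms (A : Finset V) (u : V) : Gr σ fun om x => ms σ A om u x := by
  refine Gr.nDf.mono fun om x => ?_
  rw [abs_of_nonneg (ms_nonneg A om u x), abs_of_nonneg (nD_nonneg σ x)]
  exact ms_le_nD A om u x

theorem ms_mono {A B : Finset V} (h : A ⊆ B) (om : Finset E) (u : V) (x : V → S) :
    ms σ A om u x ≤ ms σ B om u x := by
  unfold ms
  refine Finset.sum_le_sum_of_subset_of_nonneg h fun v _ _ => ?_
  split_ifs
  · exact abs_nonneg _
  · exact le_rfl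

theorem two_pt (hE : EM σ) (u v : V) :
    FK σ (fun om x => |σ.D x u| * ms σ {v} om u x) = G2 σ u v := by
  classical
  have hs : Summable fun x => σ.tot x * (|σ.D x u| * |σ.D x v|) := by
    have := hE.tot (F := fun _ x => σ.D x u * σ.D x v) ((Gr.Df u).mul (Gr.Df v)) ∅
    simpa only [abs_mul] using this
  rw [G2, σ.tsum_two hs]
  unfold FK
  refine Finset.sum_congr rfl fun om _ => ?_
  unfold ms
  simp only [Finset.sum_singleton]
  split_ifs with h
  · rfl
  · simp

theorem FK_ms (hE : EM σ) (u : V) (A : Finset V) :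
    FK σ (fun om x => |σ.D x u| * ms σ A om u x) = ∑ v ∈ A, G2 σ u v := by
  rw [← Finset.sum_congr rfl fun v _ => two_pt hE u v]
  rw [← FK_sum hE A fun v _ => (Gr.absD u).mul (Gr.ms {v} u)]
  refine FK_congr fun om x _ => ?_
  rw [← Finset.mul_sum]
  congr 1
  unfold ms
  exact Finset.sum_congr rfl fun v _ => by rw [Finset.sum_singleton]

theorem G2_nonneg (hE : EM σ) (u v : V) : 0 ≤ G2 σ u v := by
  rw [← two_pt hE]
  exact FK_nonneg fun om x => mul_nonneg (abs_nonneg _) (ms_nonneg _ _ _ _)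

theorem disj_compl {om : Finset E} {A : Finset V} (h : Disjoint om (bdE σ.s σ.t A)) :
    Disjoint om (bdE σ.s σ.t Aᶜ) := by
  rw [Finset.disjoint_left] at h ⊢
  intro e he hb
  apply h he
  rw [mem_bdE] at hb ⊢
  simp only [Finset.mem_compl] at hb
  tauto

/-- the rest of the configuration may be dropped from the tilt -/
theorem K2_ge (hE : EM σ) {om : Finset E} {τ : V → ℝ} {u v : V}
    (hc : Conn σ.s σ.t om u v) :
    ∑' x, σ.wt om x * (|σ.D x u| * |σ.D x v| * Real.cosh (σ.pa τ (clus σ.s σ.t om u) x))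
      ≤ ∑' x, σ.wt om x * σ.K2 τ u v (clus σ.s σ.t om u) x := by
  set C := clus σ.s σ.t om u with hC
  have hd : Disjoint om (bdE σ.s σ.t Cᶜ) := disj_compl (σ.disj_clus om u)
  have hu : u ∉ Cᶜ := by simp [hC, self_mem_clus]
  have hv : v ∉ Cᶜ := by simp [hC, mem_clus, hc]
  have hpa : ∀ x, |σ.pa τ C x| ≤ (∑ v, |τ v|) * nD σ x := fun x =>
    abs_lin_le τ C x (fun v => |σ.D x v|) fun v => by rw [abs_abs]
  have hpr : ∀ x, |σ.pr τ Cᶜ x| ≤ (∑ v, |τ v|) * nD σ x := fun x =>
    abs_lin_le τ Cᶜ x (fun v => σ.D x v) fun v => le_rfl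
  have hT : 0 ≤ ∑ v, |τ v| := Finset.sum_nonneg fun _ _ => abs_nonneg _
  have g1 : Gr σ fun _ x => |σ.D x u| * |σ.D x v| * Real.cosh (σ.pa τ C x) :=
    ((Gr.absD u).mul (Gr.absD v)).mul (Gr.cosh_abs _ hT fun _ x => hpa x)
  have g2 : Gr σ fun _ x => σ.K2 τ u v C x := by
    unfold Sys.K2
    exact g1.mul (Gr.exp_abs _ hT fun _ x => hpr x)
  rw [σ.tsum_symm hd (hE.wt g2 om)]
  refine (hE.wt g1 om).tsum_le_tsum (fun x => ?_) (σ.summable_symm hd (hE.wt g2 om))
  refine mul_le_mul_of_nonneg_left ?_ (σ.wt_nonneg om x)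
  have e1 : σ.pa τ C (σ.flip Cᶜ x) = σ.pa τ C x := by
    unfold Sys.pa
    exact Finset.sum_congr rfl fun w _ => by rw [σ.abs_D_flip]
  have e2 : σ.pr τ Cᶜ (σ.flip Cᶜ x) = -σ.pr τ Cᶜ x := σ.pr_flip_sub (Finset.Subset.refl _) τ x
  have e3 : (σ.K2 τ u v C x + σ.K2 τ u v C (σ.flip Cᶜ x)) / 2
      = |σ.D x u| * |σ.D x v| * Real.cosh (σ.pa τ C x) * Real.cosh (σ.pr τ Cᶜ x) := by
    unfold Sys.K2
    rw [e1, e2, σ.D_flip_not_mem hu, σ.D_flip_not_mem hv, Real.cosh_eq (σ.pr τ Cᶜ x)]
    ring
  rw [e3]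
  have h1 : 0 ≤ |σ.D x u| * |σ.D x v| * Real.cosh (σ.pa τ C x) := by
    have := Real.cosh_pos (σ.pa τ C x)
    positivity
  exact le_mul_of_one_le_right h1 (Real.one_le_cosh _)

/-- exponential moments of the mass of a cluster in a set -/
theorem cosh_le (hE : EM σ) (A : Finset V) {t : ℝ} (ht : 0 ≤ t) :
    FK σ (fun om x => ∑ u ∈ A, |σ.D x u| * (ms σ A om u x * Real.cosh (t * ms σ A om u x)))
      ≤ ∑' x, σ.tot x * ((∑ u ∈ A, σ.D x u) ^ 2 * Real.exp (t * ∑ u ∈ A, σ.D x u)) := by
  classical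
  let β : V → ℝ := fun v => if v ∈ A then 1 else 0
  let τ : V → ℝ := fun v => if v ∈ A then t else 0
  have hβ : ∀ v, 0 ≤ β v := fun v => by
    show (0:ℝ) ≤ if v ∈ A then 1 else 0
    split_ifs <;> norm_num
  have hτ : ∀ v, 0 ≤ τ v := fun v => by
    show (0:ℝ) ≤ if v ∈ A then t else 0
    split_ifs <;> [exact ht; exact le_rfl]
  have hT : 0 ≤ ∑ v, |τ v| := Finset.sum_nonneg fun _ _ => abs_nonneg _
  have hS : ∀ u v, Summable fun x => σ.tot x * |σ.F2 τ u v x| := fun u v => by
    refine hE.tot (F := fun _ x => σ.F2 τ u v x) ?_ ∅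
    unfold Sys.F2
    exact ((Gr.Df u).mul (Gr.Df v)).mul (Gr.exp_abs _ hT fun _ x =>
      abs_lin_le τ univ x (fun v => σ.D x v) fun v => le_rfl)
  have h1 := σ.swap_lower hβ hτ (fun _ => True) hS
  have hb : ∀ x, ∑ u, β u * σ.D x u = ∑ u ∈ A, σ.D x u := fun x => by
    simp only [β, ite_mul, one_mul, zero_mul, Finset.sum_ite_mem, Finset.univ_inter]
  have hp : ∀ x, σ.pr τ univ x = t * ∑ u ∈ A, σ.D x u := fun x => by
    unfold Sys.pr
    simp only [τ, ite_mul, zero_mul, Finset.sum_ite_mem, Finset.univ_inter, Finset.mul_sum]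
  simp only [hb, hp, if_true] at h1
  refine le_trans ?_ h1
  unfold FK
  refine Finset.sum_le_sum fun om _ => ?_
  -- pointwise in `om`
  have gm : ∀ u, Gr σ fun om x => |σ.D x u| * (ms σ A om u x * Real.cosh (t * ms σ A om u x)) :=
    fun u => (Gr.absD u).mul ((Gr.ms A u).mul (Gr.cosh_abs t ht fun om x => by
      rw [abs_mul, abs_of_nonneg ht, abs_of_nonneg (ms_nonneg A om u x)]
      exact mul_le_mul_of_nonneg_left (ms_le_nD A om u x) ht))
  have e1 : ∑' x, σ.wt om x * ∑ u ∈ A, |σ.D x u| * (ms σ A om u x * Real.cosh (t * ms σ A om u x))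
      = ∑ u ∈ A, ∑' x, σ.wt om x * (|σ.D x u| * (ms σ A om u x * Real.cosh (t * ms σ A om u x))) := by
    rw [← Summable.tsum_finsetSum fun u _ => hE.wt (gm u) om]
    exact tsum_congr fun x => by rw [Finset.mul_sum]
  rw [e1]
  have e2 : ∀ u, ∑ v ∈ clus σ.s σ.t om u, β u * β v * ∑' x, σ.wt om x *
      σ.K2 τ u v (clus σ.s σ.t om u) x
      = if u ∈ A then ∑ v ∈ clus σ.s σ.t om u, β v * ∑' x, σ.wt om x *
        σ.K2 τ u v (clus σ.s σ.t om u) x else 0 := by
    intro u
    by_cases hu : u ∈ A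
    · rw [if_pos hu]
      exact Finset.sum_congr rfl fun v _ => by simp [β, hu]
    · rw [if_neg hu]
      exact Finset.sum_eq_zero fun v _ => by simp [β, hu]
  rw [Finset.sum_congr rfl fun u _ => e2 u, Finset.sum_ite_mem, Finset.univ_inter]
  refine Finset.sum_le_sum fun u _ => ?_
  -- expand `ms` as a sum over the cluster
  have hpa : ∀ x, σ.pa τ (clus σ.s σ.t om u) x = t * ms σ A om u x := fun x => by
    unfold Sys.pa ms
    rw [Finset.mul_sum]
    simp only [τ, ite_mul, zero_mul, mul_ite, mul_zero]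
    rw [← Finset.sum_filter, ← Finset.sum_filter]
    refine Finset.sum_congr ?_ fun _ _ => rfl
    ext v
    simp [and_comm]
  have hms : ∀ x, ms σ A om u x = ∑ v ∈ clus σ.s σ.t om u, β v * |σ.D x v| := fun x => by
    unfold ms
    simp only [β, ite_mul, one_mul, zero_mul]
    rw [← Finset.sum_filter, ← Finset.sum_filter]
    refine Finset.sum_congr ?_ fun _ _ => rfl
    ext v
    simp [and_comm]
  have gk : ∀ v, Gr σ fun (_ : Finset E) x => |σ.D x u| * |σ.D x v| *
      Real.cosh (σ.pa τ (clus σ.s σ.t om u) x) := fun v =>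
    ((Gr.absD u).mul (Gr.absD v)).mul (Gr.cosh_abs _ hT fun _ x =>
      abs_lin_le τ _ x (fun v => |σ.D x v|) fun v => by rw [abs_abs])
  have e3 : ∑' x, σ.wt om x * (|σ.D x u| * (ms σ A om u x * Real.cosh (t * ms σ A om u x)))
      = ∑ v ∈ clus σ.s σ.t om u, β v * ∑' x, σ.wt om x *
        (|σ.D x u| * |σ.D x v| * Real.cosh (σ.pa τ (clus σ.s σ.t om u) x)) := by
    have e4 : ∀ v ∈ clus σ.s σ.t om u, β v * ∑' x, σ.wt om x *
        (|σ.D x u| * |σ.D x v| * Real.cosh (σ.pa τ (clus σ.s σ.t om u) x))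
        = ∑' x, β v * (σ.wt om x *
        (|σ.D x u| * |σ.D x v| * Real.cosh (σ.pa τ (clus σ.s σ.t om u) x))) :=
      fun v _ => tsum_mul_left.symm
    rw [Finset.sum_congr rfl e4,
      ← Summable.tsum_finsetSum fun v _ => (hE.wt (gk v) om).mul_left (β v)]
    refine tsum_congr fun x => ?_
    rw [hpa x]
    have e5 : ∀ c : ℝ, σ.wt om x * (|σ.D x u| * (ms σ A om u x * c))
        = ∑ v ∈ clus σ.s σ.t om u, β v * (σ.wt om x * (|σ.D x u| * |σ.D x v| * c)) := fun c => by
      rw [hms x, Finset.sum_mul, Finset.mul_sum, Finset.mul_sum]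
      exact Finset.sum_congr rfl fun v _ => by ring
    exact e5 _
  rw [e3]
  exact Finset.sum_le_sum fun v hv => mul_le_mul_of_nonneg_left (K2_ge hE (mem_clus.1 hv)) (hβ v)

open Classical in
/-- the first moment of the clusters which meet `R` -/
theorem first_moment (hE : EM σ) {J : Type*} [Fintype J] (R : Finset V) (far : Finset V)
    (core ball : J → Finset V) {μ L : ℝ} {m : ℕ} (hμ : 0 ≤ μ) (hL : 0 ≤ L)
    (fat : ∀ u ∈ far, ∀ j, μ * FK σ (fun om x => if Mt σ R om u ∧ Mt σ (core j) om u
        then |σ.D x u| else 0)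
      ≤ FK σ (fun om x => if Mt σ R om u ∧ Mt σ (core j) om u
        then |σ.D x u| * ms σ (ball j) om u x else 0))
    (cnt : ∀ om x, σ.wt om x ≠ 0 → ∀ u ∈ far, Mt σ R om u →
      m ≤ (univ.filter fun j => Mt σ (core j) om u).card)
    (ovl : ∀ v, ((univ.filter fun j => v ∈ ball j).card : ℝ) ≤ L) :
    m * μ * ∑ u ∈ far, FK σ (fun om x => if Mt σ R om u then |σ.D x u| else 0)
      ≤ L * ∑ u, ∑ v, G2 σ u v := by
  have key : ∀ u ∈ far, m * μ * FK σ (fun om x => if Mt σ R om u then |σ.D x u| else 0)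
      ≤ L * ∑ v, G2 σ u v := by
    intro u hu
    have hg : ∀ j, Gr σ fun om x => if Mt σ R om u ∧ Mt σ (core j) om u
        then |σ.D x u| else 0 := fun j => (Gr.absD u).ite _
    have hg2 : ∀ j, Gr σ fun om x => if Mt σ R om u ∧ Mt σ (core j) om u
        then |σ.D x u| * ms σ (ball j) om u x else 0 := fun j => ((Gr.absD u).mul (Gr.ms _ u)).ite _
    have h1 : m * FK σ (fun om x => if Mt σ R om u then |σ.D x u| else 0)
        ≤ ∑ j, FK σ (fun om x => if Mt σ R om u ∧ Mt σ (core j) om u then |σ.D x u| else 0) := by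
      rw [← FK_mul, ← FK_sum hE univ fun j _ => hg j]
      refine FK_mono hE ((Gr.const _).mul ((Gr.absD u).ite _)) (Gr.sum univ fun j _ => hg j)
        fun om x hw => ?_
      by_cases h : Mt σ R om u
      · simp only [h, true_and, if_true]
        rw [← Finset.sum_filter, Finset.sum_const, nsmul_eq_mul]
        exact mul_le_mul_of_nonneg_right (by exact_mod_cast cnt om x hw u hu h) (abs_nonneg _)
      · simp [h]
    have h2 : ∑ j, FK σ (fun om x => if Mt σ R om u ∧ Mt σ (core j) om u
        then |σ.D x u| * ms σ (ball j) om u x else 0) ≤ L * ∑ v, G2 σ u v := by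
      rw [← FK_ms hE u univ, ← FK_mul, ← FK_sum hE univ fun j _ => hg2 j]
      refine FK_mono hE (Gr.sum univ fun j _ => hg2 j)
        ((Gr.const _).mul ((Gr.absD u).mul (Gr.ms _ u))) fun om x _ => ?_
      have h3 : ∀ j, (if Mt σ R om u ∧ Mt σ (core j) om u
          then |σ.D x u| * ms σ (ball j) om u x else 0) ≤ |σ.D x u| * ms σ (ball j) om u x := by
        intro j
        split_ifs
        · exact le_rfl
        · exact mul_nonneg (abs_nonneg _) (ms_nonneg _ _ _ _)
      refine (Finset.sum_le_sum fun j _ => h3 j).trans ?_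
      rw [← Finset.mul_sum, ← mul_assoc, mul_comm L, mul_assoc]
      refine mul_le_mul_of_nonneg_left ?_ (abs_nonneg _)
      unfold ms
      have h4 : ∀ j, (∑ v ∈ ball j, if v ∈ clus σ.s σ.t om u then |σ.D x v| else 0)
          = ∑ v, if v ∈ ball j then (if v ∈ clus σ.s σ.t om u then |σ.D x v| else 0) else 0 := by
        intro j
        have h5 := Finset.sum_ite_mem (univ : Finset V) (ball j)
          (fun v => if v ∈ clus σ.s σ.t om u then |σ.D x v| else 0)
        rw [h5, Finset.univ_inter]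
      rw [Finset.sum_congr rfl fun j _ => h4 j, Finset.sum_comm, Finset.mul_sum]
      refine Finset.sum_le_sum fun v _ => ?_
      rw [← Finset.sum_filter, Finset.sum_const, nsmul_eq_mul]
      refine mul_le_mul_of_nonneg_right (ovl v) ?_
      split_ifs
      · exact abs_nonneg _
      · exact le_rfl
    calc m * μ * FK σ (fun om x => if Mt σ R om u then |σ.D x u| else 0)
        = μ * (m * FK σ (fun om x => if Mt σ R om u then |σ.D x u| else 0)) := by ring
      _ ≤ μ * ∑ j, FK σ (fun om x => if Mt σ R om u ∧ Mt σ (core j) om u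
            then |σ.D x u| else 0) := mul_le_mul_of_nonneg_left h1 hμ
      _ = ∑ j, μ * FK σ (fun om x => if Mt σ R om u ∧ Mt σ (core j) om u
            then |σ.D x u| else 0) := by rw [Finset.mul_sum]
      _ ≤ _ := Finset.sum_le_sum fun j _ => fat u hu j
      _ ≤ _ := h2
  rw [Finset.mul_sum]
  refine (Finset.sum_le_sum key).trans ?_
  rw [← Finset.mul_sum]
  exact mul_le_mul_of_nonneg_left (Finset.sum_le_sum_of_subset_of_nonneg (Finset.subset_univ _)
    fun u _ _ => Finset.sum_nonneg fun v _ => G2_nonneg hE u v) hL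

/-- truncation of the mass of one cell -/
theorem trunc {M t lam : ℝ} (hM : 0 ≤ M) (ht : 0 ≤ t) (hl : 0 ≤ lam) :
    M ≤ lam + (Real.cosh (t * lam))⁻¹ * (M * Real.cosh (t * M)) := by
  have hc := Real.cosh_pos (t * lam)
  rcases le_total M lam with h | h
  · have : 0 ≤ (Real.cosh (t * lam))⁻¹ * (M * Real.cosh (t * M)) := by
      have := Real.cosh_pos (t * M)
      positivity
    linarith
  · have h1 : Real.cosh (t * lam) ≤ Real.cosh (t * M) := by
      rw [Real.cosh_le_cosh, abs_of_nonneg (by positivity), abs_of_nonneg (by positivity)]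
      exact mul_le_mul_of_nonneg_left h ht
    have h2 : M ≤ (Real.cosh (t * lam))⁻¹ * (M * Real.cosh (t * M)) := by
      rw [inv_mul_eq_div, le_div_iff₀ hc]
      exact mul_le_mul_of_nonneg_left h1 hM
    linarith

open Classical in
/-- **(b)-(e) of row IH.** `cell` = index of the cell of a site, `far` = the far cells, `R` = the
ring, `N2 = E h_Λ²` -/
theorem abs_ih (hE : EM σ) {I J : Type*} [Fintype I] [DecidableEq I] [Fintype J] (cell : V → I)
    (far : Finset I) (R : Finset V) (core ball : J → Finset V) {μ L t lam : ℝ} {m : ℕ}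
    (hμ : 0 < μ) (hm : 0 < m) (hL : 0 ≤ L) (ht : 0 ≤ t) (hl : 0 ≤ lam)
    (fat : ∀ u, cell u ∈ far → ∀ j, μ * FK σ (fun om x => if Mt σ R om u ∧ Mt σ (core j) om u
        then |σ.D x u| else 0)
      ≤ FK σ (fun om x => if Mt σ R om u ∧ Mt σ (core j) om u
        then |σ.D x u| * ms σ (ball j) om u x else 0))
    (cnt : ∀ om x, σ.wt om x ≠ 0 → ∀ u, cell u ∈ far → Mt σ R om u →
      m ≤ (univ.filter fun j => Mt σ (core j) om u).card)
    (ovl : ∀ v, ((univ.filter fun j => v ∈ ball j).card : ℝ) ≤ L) :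
    FK σ (fun om x => ∑ u, if Mt σ R om u then |σ.D x u| * ms σ univ om u x else 0)
      ≤ (∑ u, ∑ v, G2 σ u v - ∑ u, ∑ v ∈ univ.filter (fun v => cell v = cell u), G2 σ u v)
        + ∑ u ∈ univ.filter (fun u => cell u ∉ far),
            ∑ v ∈ univ.filter (fun v => cell v = cell u), G2 σ u v
        + lam * (L / (m * μ)) * ∑ u, ∑ v, G2 σ u v
        + (Real.cosh (t * lam))⁻¹ * ∑ i ∈ far, ∑' x, σ.tot x *
            ((∑ u ∈ univ.filter (fun u => cell u = i), σ.D x u) ^ 2 *
              Real.exp (t * ∑ u ∈ univ.filter (fun u => cell u = i), σ.D x u)) := by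
  set cs : V → Finset V := fun u => univ.filter fun v => cell v = cell u with hcs
  -- pointwise bound
  have hpt : ∀ om x, (∑ u, if Mt σ R om u then |σ.D x u| * ms σ univ om u x else 0)
      ≤ ∑ u, |σ.D x u| * ms σ (cs u)ᶜ om u x
        + ∑ u, (if cell u ∈ far then 0 else |σ.D x u| * ms σ (cs u) om u x)
        + lam * ∑ u ∈ univ.filter (fun u => cell u ∈ far), (if Mt σ R om u then |σ.D x u| else 0)
        + (Real.cosh (t * lam))⁻¹ * ∑ i ∈ far, ∑ u ∈ univ.filter (fun u => cell u = i),
          |σ.D x u| * (ms σ (univ.filter (fun u => cell u = i)) om u x *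
            Real.cosh (t * ms σ (univ.filter (fun u => cell u = i)) om u x)) := by
    intro om x
    have h1 : ∑ i ∈ far, ∑ u ∈ univ.filter (fun u => cell u = i),
          |σ.D x u| * (ms σ (univ.filter (fun u => cell u = i)) om u x *
            Real.cosh (t * ms σ (univ.filter (fun u => cell u = i)) om u x))
        = ∑ u, if cell u ∈ far then |σ.D x u| * (ms σ (cs u) om u x *
            Real.cosh (t * ms σ (cs u) om u x)) else 0 := by
      have h2 : ∀ i ∈ far, ∑ u ∈ univ.filter (fun u => cell u = i),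
          |σ.D x u| * (ms σ (univ.filter (fun u => cell u = i)) om u x *
            Real.cosh (t * ms σ (univ.filter (fun u => cell u = i)) om u x))
          = ∑ u ∈ univ.filter (fun u => cell u = i), |σ.D x u| * (ms σ (cs u) om u x *
            Real.cosh (t * ms σ (cs u) om u x)) := by
        intro i _
        refine Finset.sum_congr rfl fun u hu => ?_
        rw [Finset.mem_filter] at hu
        simp only [hcs, hu.2]
      rw [Finset.sum_congr rfl h2]
      have h3 : ∀ i ∈ far, ∑ u ∈ univ.filter (fun u => cell u = i), |σ.D x u| *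
          (ms σ (cs u) om u x * Real.cosh (t * ms σ (cs u) om u x))
          = ∑ u, if cell u = i then |σ.D x u| *
            (ms σ (cs u) om u x * Real.cosh (t * ms σ (cs u) om u x)) else 0 := fun i _ =>
        Finset.sum_filter _ _
      rw [Finset.sum_congr rfl h3, Finset.sum_comm]
      refine Finset.sum_congr rfl fun u _ => ?_
      rw [Finset.sum_ite_eq far (cell u)]
    rw [h1, Finset.sum_filter, Finset.mul_sum, Finset.mul_sum, ← Finset.sum_add_distrib,
      ← Finset.sum_add_distrib, ← Finset.sum_add_distrib]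
    refine Finset.sum_le_sum fun u _ => ?_
    have hD := abs_nonneg (σ.D x u)
    have hsp : ms σ univ om u x = ms σ (cs u) om u x + ms σ (cs u)ᶜ om u x := by
      unfold ms
      exact (Finset.sum_add_sum_compl (cs u) _).symm
    have hm1 := ms_nonneg (σ := σ) (cs u) om u x
    have hm2 := ms_nonneg (σ := σ) (cs u)ᶜ om u x
    have hch : 0 ≤ (Real.cosh (t * lam))⁻¹ := by
      have := Real.cosh_pos (t * lam)
      positivity
    have hcosh := Real.cosh_pos (t * ms σ (cs u) om u x)
    have hA := mul_nonneg hD hm1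
    have hB := mul_nonneg hD hm2
    have hcc : 0 ≤ (Real.cosh (t * lam))⁻¹ * (|σ.D x u| * (ms σ (cs u) om u x *
        Real.cosh (t * ms σ (cs u) om u x))) := by positivity
    by_cases hf : cell u ∈ far
    · by_cases hR : Mt σ R om u
      · simp only [hf, hR, if_true]
        have h4 := trunc hm1 ht hl
        rw [hsp, mul_add]
        have h5 := mul_le_mul_of_nonneg_left h4 hD
        nlinarith [h5]
      · simp only [hf, hR, if_true, if_false, mul_zero, add_zero]
        linarith
    · by_cases hR : Mt σ R om u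
      · simp only [hf, hR, if_true, if_false, mul_zero, add_zero]
        rw [hsp, mul_add]
        linarith
      · simp only [hf, hR, if_false, mul_zero, add_zero]
        linarith
  -- growth
  have g1 : ∀ u, Gr σ fun om x => |σ.D x u| * ms σ (cs u)ᶜ om u x := fun u =>
    (Gr.absD u).mul (Gr.ms _ u)
  have g2 : ∀ u, Gr σ fun om x => (if cell u ∈ far then 0 else |σ.D x u| * ms σ (cs u) om u x) := by
    intro u
    by_cases hf : cell u ∈ far
    · simp only [hf, if_true]; exact Gr.const 0
    · simp only [hf, if_false]; exact (Gr.absD u).mul (Gr.ms _ u)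
  have g3 : ∀ u, Gr σ fun om x => (if Mt σ R om u then |σ.D x u| else 0) := fun u =>
    (Gr.absD u).ite _
  have g4 : ∀ i u, Gr σ fun om x => |σ.D x u| *
      (ms σ (univ.filter (fun u => cell u = i)) om u x *
            Real.cosh (t * ms σ (univ.filter (fun u => cell u = i)) om u x)) := fun i u =>
    (Gr.absD u).mul ((Gr.ms _ u).mul (Gr.cosh_abs t ht fun om x => by
      rw [abs_mul, abs_of_nonneg ht, abs_of_nonneg (ms_nonneg _ om u x)]
      exact mul_le_mul_of_nonneg_left (ms_le_nD _ om u x) ht))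
  have G1 := Gr.sum univ fun u _ => g1 u
  have G2' := Gr.sum univ fun u _ => g2 u
  have G3 := (Gr.const (σ := σ) lam).mul
    (Gr.sum (univ.filter (fun u => cell u ∈ far)) fun u _ => g3 u)
  have G4' : ∀ i, Gr σ fun om x => ∑ u ∈ univ.filter (fun u => cell u = i),
          |σ.D x u| * (ms σ (univ.filter (fun u => cell u = i)) om u x *
            Real.cosh (t * ms σ (univ.filter (fun u => cell u = i)) om u x)) := fun i =>
    Gr.sum _ fun u _ => g4 i u
  have G4 := (Gr.const (σ := σ) (Real.cosh (t * lam))⁻¹).mul (Gr.sum far fun i _ => G4' i)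
  have gL : Gr σ fun om x => ∑ u, if Mt σ R om u then |σ.D x u| * ms σ univ om u x else 0 :=
    Gr.sum univ fun u _ => ((Gr.absD u).mul (Gr.ms _ u)).ite _
  have main := FK_mono hE gL (((G1.add G2').add G3).add G4) fun om x _ => hpt om x
  rw [FK_add hE ((G1.add G2').add G3) G4, FK_add hE (G1.add G2') G3, FK_add hE G1 G2',
    FK_sum hE univ fun u _ => g1 u, FK_sum hE univ fun u _ => g2 u, FK_mul, FK_mul,
    FK_sum hE (univ.filter (fun u => cell u ∈ far)) fun u _ => g3 u,
    FK_sum hE far fun i _ => G4' i] at main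
  refine main.trans ?_
  -- the four terms
  have t1 : ∑ u, FK σ (fun om x => |σ.D x u| * ms σ (cs u)ᶜ om u x)
      = ∑ u, ∑ v, G2 σ u v - ∑ u, ∑ v ∈ cs u, G2 σ u v := by
    rw [← Finset.sum_sub_distrib]
    refine Finset.sum_congr rfl fun u _ => ?_
    rw [FK_ms hE, ← Finset.sum_add_sum_compl (cs u) (fun v => G2 σ u v)]
    ring
  have t2 : ∑ u, FK σ (fun om x => (if cell u ∈ far then 0 else |σ.D x u| * ms σ (cs u) om u x))
      = ∑ u ∈ univ.filter (fun u => cell u ∉ far), ∑ v ∈ cs u, G2 σ u v := by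
    rw [Finset.sum_filter]
    refine Finset.sum_congr rfl fun u _ => ?_
    by_cases hf : cell u ∈ far
    · simp only [hf, if_true, not_true_eq_false, if_false]
      simp [FK]
    · simp only [hf, if_false, not_false_eq_true, if_true]
      exact FK_ms hE u (cs u)
  have t3 : lam * ∑ u ∈ univ.filter (fun u => cell u ∈ far),
      FK σ (fun om x => (if Mt σ R om u then |σ.D x u| else 0))
      ≤ lam * (L / (m * μ)) * ∑ u, ∑ v, G2 σ u v := by
    have h := first_moment hE R (univ.filter (fun u => cell u ∈ far)) core ball hμ.le hL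
      (fun u hu j => fat u (Finset.mem_filter.1 hu).2 j)
      (fun om x hw u hu hR => cnt om x hw u (Finset.mem_filter.1 hu).2 hR) ovl
    rw [mul_assoc]
    refine mul_le_mul_of_nonneg_left ?_ hl
    have hmμ : (0:ℝ) < m * μ := mul_pos (by exact_mod_cast hm) hμ
    rw [div_mul_eq_mul_div, le_div_iff₀ hmμ, mul_comm _ ((m:ℝ) * μ)]
    exact h
  have t4 : (Real.cosh (t * lam))⁻¹ * ∑ i ∈ far, FK σ (fun om x =>
      ∑ u ∈ univ.filter (fun u => cell u = i),
          |σ.D x u| * (ms σ (univ.filter (fun u => cell u = i)) om u x *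
            Real.cosh (t * ms σ (univ.filter (fun u => cell u = i)) om u x)))
      ≤ (Real.cosh (t * lam))⁻¹ * ∑ i ∈ far, ∑' x, σ.tot x *
            ((∑ u ∈ univ.filter (fun u => cell u = i), σ.D x u) ^ 2 *
              Real.exp (t * ∑ u ∈ univ.filter (fun u => cell u = i), σ.D x u)) := by
    refine mul_le_mul_of_nonneg_left (Finset.sum_le_sum fun i _ => cosh_le hE _ ht) ?_
    have := Real.cosh_pos (t * lam)
    positivity
  rw [t1, t2]
  exact add_le_add (add_le_add le_rfl t3) t4

end Vale.Agent.P159.TM.H519
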