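import Vale.Agent.P159.TM.H519.Pz2
import Vale.Agent.P159.TM.H312.Fat4

/-!
Row IH. Fatness of the clusters of the massive free box which meet the ring and an interior cell:
the hypothesis `fat` of `abs_ih`.
-/

open Finset
open scoped ENNReal

set_option linter.unusedSectionVars false
set_option linter.unusedDecidableInType false

namespace Vale.Agent.P159.TM.H519

open Vale.Agent.P159.TM.H60 Vale.Agent.P159.TM.H682 Vale.Agent.P159.TM.H77
  Vale.Agent.P159.H353 Vale.Agent.P159.TM.SpecI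
  Vale.Agent.P159.TM.H179 Vale.Agent.P159.TM.H576 Vale.Agent.P159.TM.H312

section gen
variable {V E S : Type*} [Fintype V] [DecidableEq V] [Fintype E] [DecidableEq E] {σ : Sys V E S}

/-- `Ex` as a real number -/
theorem Ex_FK (hE : EM σ) {f : Finset E → (V → S) → ℝ} (hf : Gr σ f)
    (h0 : ∀ om x, 0 ≤ f om x) :
    Ex σ (fun x om => ENNReal.ofReal (f om x)) = ENNReal.ofReal (FK σ f) := by
  unfold Ex FK
  rw [Summable.tsum_finsetSum fun om _ => ENNReal.summable,
    ENNReal.ofReal_sum_of_nonneg fun om _ =>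
      tsum_nonneg fun x => mul_nonneg (σ.wt_nonneg om x) (h0 om x)]
  refine Finset.sum_congr rfl fun om _ => ?_
  rw [ENNReal.ofReal_tsum_of_nonneg (fun x => mul_nonneg (σ.wt_nonneg om x) (h0 om x))
    (hE.wt hf om)]
  exact tsum_congr fun x => (ENNReal.ofReal_mul (σ.wt_nonneg om x)).symm

open Classical in
/-- the functional of the mass profile: mass at `u`, the cluster meets `R` and `C` -/
noncomputable def Gam (R C : Finset V) (u : V) (m : V → ℕ) : ℝ≥0∞ :=
  (m u : ℝ≥0∞) * (ind (∃ r ∈ R, m r ≠ 0) * ind (∃ r ∈ C, m r ≠ 0))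

theorem Gam_mono (R C : Finset V) (u : V) : Monotone (Gam R C u) := by
  intro m m' h
  unfold Gam
  have hne : ∀ r, m r ≠ 0 → m' r ≠ 0 := fun r hr => by
    have : m r ≤ m' r := h r
    omega
  refine mul_le_mul' (by exact_mod_cast h u) (mul_le_mul' ?_ ?_)
  · exact ind_mono fun ⟨r, hr, h1⟩ => ⟨r, hr, hne r h1⟩
  · exact ind_mono fun ⟨r, hr, h1⟩ => ⟨r, hr, hne r h1⟩

theorem Gam_zero (R C : Finset V) (u : V) (m : V → ℕ) (h : m u = 0) : Gam R C u m = 0 := by
  unfold Gam
  rw [h, Nat.cast_zero, zero_mul]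

theorem Gam_ne {R C : Finset V} {u : V} {m : V → ℕ} (h : Gam R C u m ≠ 0) :
    (∃ r ∈ R, m r ≠ 0) ∧ ∃ r ∈ C, m r ≠ 0 := by
  unfold Gam at h
  constructor
  · by_contra hc
    rw [ind_false hc, zero_mul, mul_zero] at h
    exact h rfl
  · by_contra hc
    rw [ind_false hc, mul_zero, mul_zero] at h
    exact h rfl

theorem ofReal_absD (x : V → S) (v : V) :
    ENNReal.ofReal |σ.D x v| = ((σ.d (x v)).natAbs : ℝ≥0∞) := by
  unfold Sys.D
  rw [← Int.cast_abs, Int.abs_eq_natAbs, Int.cast_natCast, ENNReal.ofReal_natCast]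

open Classical in
theorem Gam_mf {R C : Finset V} {u : V} {x : V → S} {om : Finset E} (hw : σ.wt om x ≠ 0) :
    Gam R C u (mf σ x om u) =
      ENNReal.ofReal (if Mt σ R om u ∧ Mt σ C om u then |σ.D x u| else 0) := by
  by_cases hu : σ.d (x u) = 0
  · rw [Gam_zero _ _ _ _ (mf_zero hu)]
    have : |σ.D x u| = 0 := by
      unfold Sys.D
      rw [hu, Int.cast_zero, abs_zero]
    rw [this]
    simp
  · have hne : ∀ z, mf σ x om u z ≠ 0 ↔ z ∈ clus σ.s σ.t om u := by
      intro z
      unfold mf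
      by_cases hz : z ∈ clus σ.s σ.t om u
      · rw [if_pos hz]
        simp only [hz, iff_true]
        rw [Ne, Int.natAbs_eq_zero]
        rcases σ.sign_conn hw (mem_clus.1 hz) with h | h
        · rw [← h]; exact hu
        · intro h0
          rw [h0, mul_zero] at h
          exact lt_irrefl _ h
      · rw [if_neg hz]
        simp [hz]
    have e1 : ∀ A : Finset V, ind (∃ r ∈ A, mf σ x om u r ≠ 0) = ind (Mt σ A om u) := by
      intro A
      refine ind_congr ?_
      unfold Mt
      simp only [hne]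
    unfold Gam
    rw [e1, e1, ind_mul, mf_self, ← ofReal_absD]
    by_cases h : Mt σ R om u ∧ Mt σ C om u
    · rw [ind_true h, mul_one, if_pos h]
    · rw [ind_false h, mul_zero, if_neg h, ENNReal.ofReal_zero]

theorem sum_mf (B : Finset V) (u : V) (x : V → S) (om : Finset E) :
    ∑ z ∈ B, (mf σ x om u z : ℝ≥0∞) = ENNReal.ofReal (ms σ B om u x) := by
  classical
  unfold ms
  rw [ENNReal.ofReal_sum_of_nonneg]
  · refine Finset.sum_congr rfl fun z _ => ?_
    unfold mf
    by_cases hz : z ∈ clus σ.s σ.t om u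
    · rw [if_pos hz, if_pos hz, ofReal_absD]
    · rw [if_neg hz, if_neg hz]
      simp
  · intro z _
    split_ifs
    · exact abs_nonneg _
    · exact le_rfl

end gen

theorem wI_pos {b : ℝ} (hb : 0 < b) (n : ℤ) : 0 < wI b n := by
  rw [wI_eq]
  refine mul_pos (Real.exp_pos _) ?_
  have h := (summable_aw_col hb.le n).le_tsum n.natAbs fun k _ => aw_nonneg hb.le k n
  refine lt_of_lt_of_le ?_ h
  unfold aw cb
  rw [← two_mul, Nat.choose_self]
  positivity

variable {n : ℕ} [NeZero n]

theorem RW_restw1 {b ε : ℝ} (A : Finset (V n)) (k : V n → ℤ) (g : {x // x ∉ A} → ℤ) :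
    RW (sB (n := n)) tB (fun _ => wI b) (gs fun _ => ε) A (glue A k g) =
      restw1 (sB (n := n)) tB (fun _ => b) (fun _ => ε) A k g := by
  unfold RW restw1
  congr 1
  rw [Finset.prod_subtype (p := fun v => v ∉ A) Aᶜ (fun v => Finset.mem_compl)]
  refine Finset.prod_congr rfl fun v _ => ?_
  rw [glue_not_mem v.2]
  rfl

theorem sum_glue (A B : Finset (V n)) (k : V n → ℤ) (g : {x // x ∉ A} → ℤ) :
    ∑ x ∈ B \ A, (glue A k g x : ℝ) = ∑ x ∈ B, (H77.gl A 0 g x : ℝ) := by
  rw [← Finset.sum_subset (Finset.sdiff_subset : B \ A ⊆ B) (f := fun x => (H77.gl A 0 g x : ℝ))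
    (fun x hx hx' => by
      have hxA : x ∈ A := by
        by_contra h
        exact hx' (Finset.mem_sdiff.2 ⟨hx, h⟩)
      rw [H77.gl_mem hxA]
      simp)]
  refine Finset.sum_congr rfl fun x hx => ?_
  rw [H77.gl_not_mem (Finset.mem_sdiff.1 hx).2, glue_not_mem (Finset.mem_sdiff.1 hx).2]

open Classical in
/-- **fatness in the free box** -/
theorem fat_box {b ε v : ℝ} (hb : 0 < b) (hε : 0 < ε) (hv : 0 < v) {l t : ℕ} (hl : 1 ≤ l)
    (ht : 1 ≤ t) (hn : 2 ^ t * l ∣ n) (j : JB n l) (h1 : ε * ((2 : ℝ) ^ t * l) ^ 2 = 1)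
    (hvar : v * t *
        ∑' h, (syM (sB (n := n)) tB (fun _ => b) (fun _ => ε) (fun _ => hb.le)).tot h ≤
      ∑' h, (syM (sB (n := n)) tB (fun _ => b) (fun _ => ε) (fun _ => hb.le)).tot h *
        SpecI.avg l j.1 h ^ 2)
    (hT : Real.exp (162 * b * Real.cosh 9 - Real.sqrt (v * t / 2) / 2) ≤
      1 / (16 * (K1 b v * (t : ℝ) ^ 2))) (u : V n) :
    (1 / (32 * (K1 b v * (t : ℝ) ^ 2)) * Real.sqrt (v * t / 2) * (l : ℝ) ^ 2) *
        FK (syM (sB (n := n)) tB (fun _ => b) (fun _ => ε) (fun _ => hb.le))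
          (fun om x => if Mt (syM (sB (n := n)) tB (fun _ => b) (fun _ => ε) (fun _ => hb.le))
              (ring n) om u ∧
            Mt (syM (sB (n := n)) tB (fun _ => b) (fun _ => ε) (fun _ => hb.le))
              (cells n l j.1) om u
          then |(syM (sB (n := n)) tB (fun _ => b) (fun _ => ε) (fun _ => hb.le)).D x u| else 0) ≤
      FK (syM (sB (n := n)) tB (fun _ => b) (fun _ => ε) (fun _ => hb.le))
          (fun om x => if Mt (syM (sB (n := n)) tB (fun _ => b) (fun _ => ε) (fun _ => hb.le))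
              (ring n) om u ∧
            Mt (syM (sB (n := n)) tB (fun _ => b) (fun _ => ε) (fun _ => hb.le))
              (cells n l j.1) om u
          then |(syM (sB (n := n)) tB (fun _ => b) (fun _ => ε) (fun _ => hb.le)).D x u| *
            ms (syM (sB (n := n)) tB (fun _ => b) (fun _ => ε) (fun _ => hb.le))
              (blk n l j.1) om u x else 0) := by
  have hJ : ∀ e : EB n, 0 ≤ (fun _ => b : EB n → ℝ) e := fun _ => hb.le
  have hm : ∀ x : V n, 0 < (fun _ => ε : V n → ℝ) x := fun _ => hε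
  set σ := syM (sB (n := n)) tB (fun _ => b) (fun _ => ε) (fun _ => hb.le) with hσ
  have hE : EM σ := em_syM hJ hm
  have hs : Summable fun h => σ.tot h := summable_tot hJ hm
  have hK := K1_pos (b := b) hv
  have ht0 : (0 : ℝ) < t := by exact_mod_cast ht
  have hl0 : (0 : ℝ) < l := by exact_mod_cast hl
  set KK : ℝ := K1 b v * (t : ℝ) ^ 2 with hKK
  have hKK0 : 0 < KK := by positivity
  set rt : ℝ := Real.sqrt (v * t / 2) with hrt
  have hrt0 : 0 < rt := Real.sqrt_pos.2 (by positivity)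
  have hPZ := pz_box (n := n) hb.le hε hv hl ht hn j h1 hvar
  -- fatness in `ℝ≥0∞`
  have key := fatS (s := sB (n := n)) (t := tB) (w := fun _ => wI b) (fun _ k => wI_pos hb k)
    (fun _ => wI_nonneg hb.le) (fun _ => wI_neg b) (fun _ => T1.H897.logC_wI hb.le)
    (a := gs fun _ => ε) (fun v k => (gs_pos _ v k).le) (gs_neg _) hs (blk n l j.1) u
    (Γ := Gam (ring n) (cells n l j.1) u) (Gam_mono _ _ _) (Gam_zero _ _ _)
    (H := (l : ℝ) ^ 2 * rt) (by positivity) (p := ENNReal.ofReal (1 / (8 * KK)))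
    ENNReal.ofReal_ne_top hPZ ?_ ?_
  · -- back to the real numbers
    have hg1 : Gr σ fun om x => if Mt σ (ring n) om u ∧ Mt σ (cells n l j.1) om u
        then |σ.D x u| else 0 := (Gr.absD u).ite _
    have hg2 : Gr σ fun om x => if Mt σ (ring n) om u ∧ Mt σ (cells n l j.1) om u
        then |σ.D x u| * ms σ (blk n l j.1) om u x else 0 :=
      ((Gr.absD u).mul (Gr.ms _ u)).ite _
    have f1 : ∀ (om : Finset (EB n)) (x : V n → ℤ), 0 ≤ if Mt σ (ring n) om u ∧
        Mt σ (cells n l j.1) om u then |σ.D x u| else 0 := by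
      intro om x
      split_ifs
      · exact abs_nonneg _
      · exact le_rfl
    have f2 : ∀ (om : Finset (EB n)) (x : V n → ℤ), 0 ≤ if Mt σ (ring n) om u ∧
        Mt σ (cells n l j.1) om u then |σ.D x u| * ms σ (blk n l j.1) om u x else 0 := by
      intro om x
      split_ifs
      · exact mul_nonneg (abs_nonneg _) (ms_nonneg _ _ _ _)
      · exact le_rfl
    have g1 : Ex σ (fun x om => Gam (ring n) (cells n l j.1) u (mf σ x om u)) =
        ENNReal.ofReal (FK σ fun om x => if Mt σ (ring n) om u ∧ Mt σ (cells n l j.1) om u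
          then |σ.D x u| else 0) := by
      rw [← Ex_FK hE hg1 f1]
      exact Ex_congr fun x om hw => Gam_mf hw
    have g2 : Ex σ (fun x om => Gam (ring n) (cells n l j.1) u (mf σ x om u) *
        ∑ z ∈ blk n l j.1, (mf σ x om u z : ℝ≥0∞)) =
        ENNReal.ofReal (FK σ fun om x => if Mt σ (ring n) om u ∧ Mt σ (cells n l j.1) om u
          then |σ.D x u| * ms σ (blk n l j.1) om u x else 0) := by
      rw [← Ex_FK hE hg2 f2]
      refine Ex_congr fun x om hw => ?_
      rw [Gam_mf hw, sum_mf]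
      split_ifs
      · rw [ENNReal.ofReal_mul (abs_nonneg _)]
      · rw [ENNReal.ofReal_zero, zero_mul]
    have key' : ENNReal.ofReal (1 / (8 * KK)) / 2 * ENNReal.ofReal ((l : ℝ) ^ 2 * rt / 2) *
        Ex σ (fun x om => Gam (ring n) (cells n l j.1) u (mf σ x om u)) ≤
        Ex σ (fun x om => Gam (ring n) (cells n l j.1) u (mf σ x om u) *
        ∑ z ∈ blk n l j.1, (mf σ x om u z : ℝ≥0∞)) := key
    rw [g1, g2] at key'
    have e1 : ENNReal.ofReal (1 / (8 * KK)) / 2 = ENNReal.ofReal (1 / (16 * KK)) := by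
      have : (2 : ℝ≥0∞) = ENNReal.ofReal 2 := by simp
      rw [this, ← ENNReal.ofReal_div_of_pos (by norm_num)]
      congr 1
      field_simp
      ring
    have n1 : 0 ≤ FK σ fun om x => if Mt σ (ring n) om u ∧ Mt σ (cells n l j.1) om u
          then |σ.D x u| else 0 := FK_nonneg f1
    have n2 : 0 ≤ FK σ fun om x => if Mt σ (ring n) om u ∧ Mt σ (cells n l j.1) om u
          then |σ.D x u| * ms σ (blk n l j.1) om u x else 0 := FK_nonneg f2
    rw [e1, ← ENNReal.ofReal_mul (by positivity), ← ENNReal.ofReal_mul (by positivity),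
      ENNReal.ofReal_le_ofReal_iff n2] at key'
    refine le_trans (le_of_eq ?_) key'
    congr 1
    field_simp
    ring
  · -- the tail
    intro A k hA hk hne
    obtain ⟨om, rfl⟩ := hA
    obtain ⟨⟨r1, hr1, h2⟩, r2, hr2, h3⟩ := Gam_ne hne
    have hr1' : r1 ∈ clus (sB (n := n)) tB om u := by
      by_contra hc
      simp [hc] at h2
    have hr2' : r2 ∈ clus (sB (n := n)) tB om u := by
      by_contra hc
      simp [hc] at h3
    have h4 := tail_box (n := n) hb.le ⟨r1, hr1, hr1'⟩ hl (j := j) ⟨r2, hr2, hr2'⟩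
      (m := fun _ => ε) (fun _ => hε) (x := k) (fun v hv => (hk v hv).ne') zero_le_one le_rfl
      (rt / 2)
    have e2 : (l : ℝ) ^ 2 * rt / 2 = rt / 2 * (l : ℝ) ^ 2 := by ring
    rw [e2]
    simp only [RW_restw1, sum_glue]
    refine h4.trans (mul_le_mul_left ?_ _)
    have e3 : ENNReal.ofReal (1 / (8 * KK)) / 2 = ENNReal.ofReal (1 / (16 * KK)) := by
      have : (2 : ℝ≥0∞) = ENNReal.ofReal 2 := by simp
      rw [this, ← ENNReal.ofReal_div_of_pos (by norm_num)]
      congr 1
      field_simp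
      ring
    rw [e3]
    refine ENNReal.ofReal_le_ofReal ?_
    have e4 : 162 * b * Real.cosh 9 * 1 ^ 2 - 1 * (rt / 2) = 162 * b * Real.cosh 9 - rt / 2 := by
      ring
    rw [e4]
    exact hT
  · -- finiteness
    have hle : Ex σ (fun x om => Gam (ring n) (cells n l j.1) u (mf σ x om u)) ≤
        Ex σ (fun x _ => ENNReal.ofReal |σ.D x u|) := by
      refine Ex_mono fun x om hw => ?_
      rw [Gam_mf hw]
      refine ENNReal.ofReal_le_ofReal ?_
      split_ifs
      · exact le_rfl
      · exact abs_nonneg _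
    have h5 := Ex_FK hE (f := fun _ x => |σ.D x u|) (Gr.absD u) (fun _ _ => abs_nonneg _)
    have h6 : Ex σ (fun x om => Gam (ring n) (cells n l j.1) u (mf σ x om u)) ≠ ⊤ := by
      refine ne_top_of_le_ne_top ?_ hle
      rw [h5]
      exact ENNReal.ofReal_ne_top
    exact h6

end Vale.Agent.P159.TM.H519
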