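import Vale.Agent.P159.TM.H519.Fat1

/-!
Row IH. Fatness in the letters of `Spec/I.lean`: `IVAR` gives the hypothesis `fat` of `abs_ih` on the
free box of side `2 ^ k`, `ξ = 2 ^ (k - i)`, cells of side `ξ / 2 ^ t` with `t` fixed.
-/

open Finset Filter Topology
open scoped ENNReal

set_option linter.unusedSectionVars false
set_option linter.unusedDecidableInType false

namespace Vale.Agent.P159.TM.H519

open Vale.Agent.P159.TM.H60 Vale.Agent.P159.TM.H682 Vale.Agent.P159.H353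
  Vale.Agent.P159.TM.SpecI Vale.Agent.P159.TM.H179

/-- the choice of the fixed level `t` -/
theorem exists_t {b v : ℝ} (hv : 0 < v) (t₀ : ℕ) : ∃ t : ℕ, t₀ ≤ t ∧ 1 ≤ t ∧
    Real.exp (162 * b * Real.cosh 9 - Real.sqrt (v * t / 2) / 2) ≤
      1 / (16 * (K1 b v * (t : ℝ) ^ 2)) := by
  have hK := K1_pos (b := b) hv
  set C : ℝ := Real.exp (162 * b * Real.cosh 9) * (16 * K1 b v) * (64 / v ^ 2) with hC
  have hC0 : 0 < C := by positivity
  -- `y = √(v t / 2) / 2`, `t² = 64 y⁴ / v²`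
  have hy : Tendsto (fun t : ℕ => Real.sqrt (v * t / 2) / 2) atTop atTop := by
    refine Tendsto.atTop_div_const (by norm_num) ?_
    refine Real.tendsto_sqrt_atTop.comp ?_
    refine Tendsto.atTop_div_const (by norm_num) ?_
    exact Tendsto.const_mul_atTop hv tendsto_natCast_atTop_atTop
  have h1 := (Real.tendsto_pow_mul_exp_neg_atTop_nhds_zero 4).comp hy
  have h2 : ∀ᶠ t : ℕ in atTop, (Real.sqrt (v * t / 2) / 2) ^ 4 *
      Real.exp (-(Real.sqrt (v * t / 2) / 2)) < 1 / C :=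
    h1.eventually (gt_mem_nhds (by positivity))
  obtain ⟨t, h3, h4⟩ := (h2.and (eventually_ge_atTop (max t₀ 1))).exists
  have ht1 : 1 ≤ t := le_trans (le_max_right _ _) h4
  refine ⟨t, le_trans (le_max_left _ _) h4, ht1, ?_⟩
  have ht0 : (0 : ℝ) < t := by exact_mod_cast ht1
  set y := Real.sqrt (v * t / 2) / 2 with hyd
  have hy4 : y ^ 4 = v ^ 2 * t ^ 2 / 64 := by
    have h5 : Real.sqrt (v * t / 2) ^ 2 = v * t / 2 := Real.sq_sqrt (by positivity)
    calc y ^ 4 = (Real.sqrt (v * t / 2) ^ 2) ^ 2 / 16 := by rw [hyd]; ring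
      _ = _ := by rw [h5]; ring
  rw [Real.exp_sub, div_eq_mul_inv, ← Real.exp_neg, le_div_iff₀ (by positivity)]
  rw [lt_div_iff₀ hC0] at h3
  have h6 : Real.exp (162 * b * Real.cosh 9) * Real.exp (-y) * (16 * (K1 b v * (t : ℝ) ^ 2)) =
      y ^ 4 * Real.exp (-y) * C := by
    rw [hy4, hC]
    field_simp
  rw [h6]
  exact h3.le

open Classical in
/-- **`IVAR` ⟹ fatness** (hypothesis `fat` of `abs_ih`) -/
theorem fat_ivar {b : ℝ} (hb : 0 < b) (hI : IVAR b) :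
    ∃ t : ℕ, 1 ≤ t ∧ ∃ c₀ : ℝ, 0 < c₀ ∧ ∀ i : ℕ, ∃ k₀ : ℕ, i + t ≤ k₀ ∧ ∀ k : ℕ, k₀ ≤ k →
      ∀ (u : V (2 ^ k)) (j : JB (2 ^ k) (2 ^ (k - (i + t)))),
        (c₀ * ((2 ^ (k - (i + t)) : ℕ) : ℝ) ^ 2) *
          FK (syM (sB (n := 2 ^ k)) tB (fun _ => b) (fun _ => epsK (2 ^ i) k) (fun _ => hb.le))
            (fun om x =>
              if Mt (syM (sB (n := 2 ^ k)) tB (fun _ => b) (fun _ => epsK (2 ^ i) k)
                  (fun _ => hb.le)) (ring (2 ^ k)) om u ∧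
                Mt (syM (sB (n := 2 ^ k)) tB (fun _ => b) (fun _ => epsK (2 ^ i) k)
                  (fun _ => hb.le)) (cells (2 ^ k) (2 ^ (k - (i + t))) j.1) om u
              then |(syM (sB (n := 2 ^ k)) tB (fun _ => b) (fun _ => epsK (2 ^ i) k)
                  (fun _ => hb.le)).D x u| else 0) ≤
          FK (syM (sB (n := 2 ^ k)) tB (fun _ => b) (fun _ => epsK (2 ^ i) k) (fun _ => hb.le))
            (fun om x =>
              if Mt (syM (sB (n := 2 ^ k)) tB (fun _ => b) (fun _ => epsK (2 ^ i) k)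
                  (fun _ => hb.le)) (ring (2 ^ k)) om u ∧
                Mt (syM (sB (n := 2 ^ k)) tB (fun _ => b) (fun _ => epsK (2 ^ i) k)
                  (fun _ => hb.le)) (cells (2 ^ k) (2 ^ (k - (i + t))) j.1) om u
              then |(syM (sB (n := 2 ^ k)) tB (fun _ => b) (fun _ => epsK (2 ^ i) k)
                  (fun _ => hb.le)).D x u| *
                ms (syM (sB (n := 2 ^ k)) tB (fun _ => b) (fun _ => epsK (2 ^ i) k)
                  (fun _ => hb.le)) (blk (2 ^ k) (2 ^ (k - (i + t))) j.1) om u x else 0) := by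
  obtain ⟨v, hv, t₀, hvar⟩ := hI
  obtain ⟨t, ht, ht1, hT⟩ := exists_t (b := b) hv t₀
  have hK := K1_pos (b := b) hv
  have ht0 : (0 : ℝ) < t := by exact_mod_cast ht1
  refine ⟨t, ht1, 1 / (32 * (K1 b v * (t : ℝ) ^ 2)) * Real.sqrt (v * t / 2),
    mul_pos (by positivity) (Real.sqrt_pos.2 (by positivity)), fun i => ?_⟩
  obtain ⟨k₀, hk₀, h1⟩ := hvar t ht i
  refine ⟨k₀, hk₀, fun k hk u j => ?_⟩
  have hik : i + t ≤ k := hk₀.trans hk
  have hε : 0 < epsK (2 ^ i) k := by unfold epsK; positivity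
  have hl : 1 ≤ 2 ^ (k - (i + t)) := Nat.one_le_two_pow
  have hn : 2 ^ t * 2 ^ (k - (i + t)) ∣ 2 ^ k := by
    rw [← pow_add]
    exact pow_dvd_pow 2 (by omega)
  have he : epsK (2 ^ i) k * ((2 : ℝ) ^ t * ((2 ^ (k - (i + t)) : ℕ) : ℝ)) ^ 2 = 1 := by
    unfold epsK
    push_cast
    rw [← pow_add, show t + (k - (i + t)) = k - i by omega]
    have e4 : (4 : ℝ) ^ k = ((2 : ℝ) ^ k) ^ 2 := by
      rw [← pow_mul, mul_comm k 2, pow_mul]
      norm_num
    have e5 : (2 : ℝ) ^ k = 2 ^ i * 2 ^ (k - i) := by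
      rw [← pow_add]
      congr 1
      omega
    rw [e4, e5]
    field_simp
  have hJ : ∀ e : EB (2 ^ k), 0 ≤ (fun _ => b : EB (2 ^ k) → ℝ) e := fun _ => hb.le
  have hm : ∀ x : V (2 ^ k), 0 < (fun _ => epsK (2 ^ i) k : V (2 ^ k) → ℝ) x := fun _ => hε
  have hj : j.1.1 < 2 ^ (i + t) ∧ j.1.2 < 2 ^ (i + t) := by
    have h2 := j.int
    have h3 : 2 ^ k / 2 ^ (k - (i + t)) = 2 ^ (i + t) := by
      rw [Nat.pow_div (by omega) (by norm_num)]
      congr 1
      omega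
    obtain ⟨a1, a2, a3, a4⟩ := h2
    exact ⟨lt_of_lt_of_le (by omega) (a2.trans h3.le), lt_of_lt_of_le (by omega) (a4.trans h3.le)⟩
  have h2 := h1 k hk j.1.1 j.1.2 hj.1 hj.2
  unfold exF ex at h2
  simp only [wt_tot hb.le] at h2
  have hZ := tot_pos (s := sB (n := 2 ^ k)) (t := tB) hJ hm
  rw [le_div_iff₀ hZ] at h2
  exact fat_box hb hε hv hl ht1 hn j he h2 hT u

end Vale.Agent.P159.TM.H519
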