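import Vale.Agent.P159.TM.H60.Swap

/-!
Row IH. The functional `FK F = ∑ om, ∑' x, wt om x * F om x` on a swap invariant system, for
functions of exponential growth.
-/

open Finset

set_option linter.unusedSectionVars false
set_option linter.unusedDecidableInType false

namespace Vale.Agent.P159.TM.H519

open Vale.Agent.P159.TM.H60

variable {V E S : Type*} [Fintype V] [DecidableEq V] [Fintype E] [DecidableEq E] (σ : Sys V E S)

/-- the sum of the absolute values of `d` -/
noncomputable def nD (x : V → S) : ℝ := ∑ v, |σ.D x v|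

theorem nD_nonneg (x : V → S) : 0 ≤ nD σ x := Finset.sum_nonneg fun _ _ => abs_nonneg _

theorem abs_D_le (x : V → S) (v : V) : |σ.D x v| ≤ nD σ x :=
  Finset.single_le_sum (f := fun v => |σ.D x v|) (fun _ _ => abs_nonneg _) (Finset.mem_univ v)

/-- exponential growth -/
def Gr (F : Finset E → (V → S) → ℝ) : Prop :=
  ∃ C K : ℝ, 0 ≤ C ∧ 0 ≤ K ∧ ∀ om x, |F om x| ≤ C * Real.exp (K * nD σ x)

variable {σ}

theorem Gr.const (c : ℝ) : Gr σ fun _ _ => c :=
  ⟨|c|, 0, abs_nonneg _, le_rfl, fun _ _ => by simp⟩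

theorem Gr.mono {F G : Finset E → (V → S) → ℝ} (hG : Gr σ G)
    (h : ∀ om x, |F om x| ≤ |G om x|) : Gr σ F := by
  obtain ⟨C, K, hC, hK, hb⟩ := hG
  exact ⟨C, K, hC, hK, fun om x => (h om x).trans (hb om x)⟩

theorem Gr.add {F G : Finset E → (V → S) → ℝ} (hF : Gr σ F) (hG : Gr σ G) :
    Gr σ fun om x => F om x + G om x := by
  obtain ⟨C, K, hC, hK, hb⟩ := hF
  obtain ⟨C', K', hC', hK', hb'⟩ := hG
  refine ⟨C + C', K + K', by positivity, by positivity, fun om x => ?_⟩
  have hn := nD_nonneg σ x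
  have h1 : Real.exp (K * nD σ x) ≤ Real.exp ((K + K') * nD σ x) :=
    Real.exp_le_exp.2 (by nlinarith)
  have h2 : Real.exp (K' * nD σ x) ≤ Real.exp ((K + K') * nD σ x) :=
    Real.exp_le_exp.2 (by nlinarith)
  calc |F om x + G om x| ≤ |F om x| + |G om x| := abs_add_le _ _
    _ ≤ C * Real.exp (K * nD σ x) + C' * Real.exp (K' * nD σ x) := add_le_add (hb om x) (hb' om x)
    _ ≤ C * Real.exp ((K + K') * nD σ x) + C' * Real.exp ((K + K') * nD σ x) :=
        add_le_add (mul_le_mul_of_nonneg_left h1 hC) (mul_le_mul_of_nonneg_left h2 hC')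
    _ = (C + C') * Real.exp ((K + K') * nD σ x) := by ring

theorem Gr.mul {F G : Finset E → (V → S) → ℝ} (hF : Gr σ F) (hG : Gr σ G) :
    Gr σ fun om x => F om x * G om x := by
  obtain ⟨C, K, hC, hK, hb⟩ := hF
  obtain ⟨C', K', hC', hK', hb'⟩ := hG
  refine ⟨C * C', K + K', by positivity, by positivity, fun om x => ?_⟩
  calc |F om x * G om x| = |F om x| * |G om x| := abs_mul _ _
    _ ≤ (C * Real.exp (K * nD σ x)) * (C' * Real.exp (K' * nD σ x)) :=
        mul_le_mul (hb om x) (hb' om x) (abs_nonneg _) (by positivity)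
    _ = C * C' * Real.exp ((K + K') * nD σ x) := by rw [add_mul, Real.exp_add]; ring

theorem Gr.sum {ι : Type*} (s : Finset ι) {F : ι → Finset E → (V → S) → ℝ}
    (h : ∀ i ∈ s, Gr σ (F i)) : Gr σ fun om x => ∑ i ∈ s, F i om x := by
  classical
  induction s using Finset.induction_on with
  | empty => simpa using Gr.const (σ := σ) 0
  | insert a s ha ih =>
    have h1 := (h a (Finset.mem_insert_self a s)).add
      (ih fun i hi => h i (Finset.mem_insert_of_mem hi))
    refine h1.mono fun om x => ?_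
    rw [Finset.sum_insert ha]

theorem Gr.nDf : Gr σ fun _ x => nD σ x := by
  refine ⟨1, 1, zero_le_one, zero_le_one, fun _ x => ?_⟩
  rw [abs_of_nonneg (nD_nonneg σ x), one_mul, one_mul]
  have := Real.add_one_le_exp (nD σ x)
  linarith

theorem Gr.absD (v : V) : Gr σ fun _ x => |σ.D x v| := by
  refine Gr.nDf.mono fun _ x => ?_
  rw [abs_abs, abs_of_nonneg (nD_nonneg σ x)]
  exact abs_D_le σ x v

theorem Gr.Df (v : V) : Gr σ fun _ x => σ.D x v := by
  refine (Gr.absD v).mono fun _ x => ?_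
  rw [abs_abs]

theorem Gr.exp_abs {F : Finset E → (V → S) → ℝ} (K : ℝ) (hK : 0 ≤ K)
    (h : ∀ om x, |F om x| ≤ K * nD σ x) : Gr σ fun om x => Real.exp (F om x) := by
  refine ⟨1, K, zero_le_one, hK, fun om x => ?_⟩
  rw [abs_of_pos (Real.exp_pos _), one_mul]
  exact Real.exp_le_exp.2 ((le_abs_self _).trans (h om x))

theorem Gr.cosh_abs {F : Finset E → (V → S) → ℝ} (K : ℝ) (hK : 0 ≤ K)
    (h : ∀ om x, |F om x| ≤ K * nD σ x) : Gr σ fun om x => Real.cosh (F om x) := by
  have h1 := (Gr.exp_abs K hK h).add (Gr.exp_abs (F := fun om x => -F om x) K hK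
    (fun om x => by rw [abs_neg]; exact h om x))
  refine h1.mono fun om x => ?_
  rw [abs_of_pos (Real.cosh_pos _), abs_of_pos (by positivity), Real.cosh_eq]
  have := Real.exp_pos (F om x)
  have := Real.exp_pos (-F om x)
  linarith

theorem Gr.ite {F : Finset E → (V → S) → ℝ} (hF : Gr σ F) (p : Finset E → (V → S) → Prop)
    [∀ om x, Decidable (p om x)] : Gr σ fun om x => if p om x then F om x else 0 := by
  refine hF.mono fun om x => ?_
  split_ifs
  · exact le_rfl
  · simp

/-- linear functions on a set -/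
theorem abs_lin_le (τ : V → ℝ) (A : Finset V) (x : V → S) (y : V → ℝ)
    (hy : ∀ v, |y v| ≤ |σ.D x v|) : |∑ v ∈ A, τ v * y v| ≤ (∑ v, |τ v|) * nD σ x := by
  calc |∑ v ∈ A, τ v * y v| ≤ ∑ v ∈ A, |τ v * y v| := Finset.abs_sum_le_sum_abs _ _
    _ ≤ ∑ v ∈ A, |τ v| * nD σ x := Finset.sum_le_sum fun v _ => by
        rw [abs_mul]
        exact mul_le_mul_of_nonneg_left ((hy v).trans (abs_D_le σ x v)) (abs_nonneg _)
    _ ≤ ∑ v, |τ v| * nD σ x := Finset.sum_le_sum_of_subset_of_nonneg (Finset.subset_univ _)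
        fun v _ _ => mul_nonneg (abs_nonneg _) (nD_nonneg σ x)
    _ = (∑ v, |τ v|) * nD σ x := by rw [Finset.sum_mul]

variable (σ)

/-- all exponential moments exist -/
def EM : Prop := ∀ K : ℝ, Summable fun x => σ.tot x * Real.exp (K * nD σ x)

variable {σ}

theorem EM.tot (hE : EM σ) {F : Finset E → (V → S) → ℝ} (hF : Gr σ F) (om : Finset E) :
    Summable fun x => σ.tot x * |F om x| := by
  obtain ⟨C, K, hC, hK, hb⟩ := hF
  refine Summable.of_nonneg_of_le (fun x => mul_nonneg (σ.tot_nonneg x) (abs_nonneg _))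
    (fun x => ?_) ((hE K).mul_left C)
  calc σ.tot x * |F om x| ≤ σ.tot x * (C * Real.exp (K * nD σ x)) :=
        mul_le_mul_of_nonneg_left (hb om x) (σ.tot_nonneg x)
    _ = C * (σ.tot x * Real.exp (K * nD σ x)) := by ring

theorem EM.wt (hE : EM σ) {F : Finset E → (V → S) → ℝ} (hF : Gr σ F) (om : Finset E) :
    Summable fun x => σ.wt om x * F om x :=
  σ.summable_wt_of_tot (hE.tot hF om)

variable (σ)

/-- the FK functional -/
noncomputable def FK (F : Finset E → (V → S) → ℝ) : ℝ := ∑ om, ∑' x, σ.wt om x * F om x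

variable {σ}

theorem FK_mono (hE : EM σ) {F G : Finset E → (V → S) → ℝ} (hF : Gr σ F) (hG : Gr σ G)
    (h : ∀ om x, σ.wt om x ≠ 0 → F om x ≤ G om x) : FK σ F ≤ FK σ G := by
  refine Finset.sum_le_sum fun om _ => (hE.wt hF om).tsum_le_tsum (fun x => ?_) (hE.wt hG om)
  rcases eq_or_ne (σ.wt om x) 0 with h0 | h0
  · rw [h0, zero_mul, zero_mul]
  · exact mul_le_mul_of_nonneg_left (h om x h0) (σ.wt_nonneg om x)

theorem FK_congr {F G : Finset E → (V → S) → ℝ}
    (h : ∀ om x, σ.wt om x ≠ 0 → F om x = G om x) : FK σ F = FK σ G := by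
  refine Finset.sum_congr rfl fun om _ => tsum_congr fun x => ?_
  rcases eq_or_ne (σ.wt om x) 0 with h0 | h0
  · rw [h0, zero_mul, zero_mul]
  · rw [h om x h0]

theorem FK_nonneg {F : Finset E → (V → S) → ℝ} (h : ∀ om x, 0 ≤ F om x) : 0 ≤ FK σ F :=
  Finset.sum_nonneg fun om _ => tsum_nonneg fun x => mul_nonneg (σ.wt_nonneg om x) (h om x)

theorem FK_add (hE : EM σ) {F G : Finset E → (V → S) → ℝ} (hF : Gr σ F) (hG : Gr σ G) :
    FK σ (fun om x => F om x + G om x) = FK σ F + FK σ G := by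
  unfold FK
  rw [← Finset.sum_add_distrib]
  refine Finset.sum_congr rfl fun om _ => ?_
  rw [← (hE.wt hF om).tsum_add (hE.wt hG om)]
  exact tsum_congr fun x => by ring

theorem FK_mul (c : ℝ) (F : Finset E → (V → S) → ℝ) :
    FK σ (fun om x => c * F om x) = c * FK σ F := by
  unfold FK
  rw [Finset.mul_sum]
  refine Finset.sum_congr rfl fun om _ => ?_
  rw [← tsum_mul_left]
  exact tsum_congr fun x => by ring

theorem FK_sum (hE : EM σ) {ι : Type*} (s : Finset ι) {F : ι → Finset E → (V → S) → ℝ}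
    (h : ∀ i ∈ s, Gr σ (F i)) :
    FK σ (fun om x => ∑ i ∈ s, F i om x) = ∑ i ∈ s, FK σ (F i) := by
  classical
  induction s using Finset.induction_on with
  | empty => simp [FK]
  | insert a s ha ih =>
    rw [Finset.sum_insert ha, ← ih fun i hi => h i (Finset.mem_insert_of_mem hi),
      ← FK_add hE (h a (Finset.mem_insert_self a s))
        (Gr.sum s fun i hi => h i (Finset.mem_insert_of_mem hi))]
    refine FK_congr fun om x _ => ?_
    rw [Finset.sum_insert ha]

/-- functions which do not depend on the open edges -/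
theorem FK_plain (hE : EM σ) {F : (V → S) → ℝ} (hF : Gr σ fun _ x => F x) :
    FK σ (fun _ x => F x) = ∑' x, σ.tot x * F x := by
  unfold FK
  rw [← Summable.tsum_finsetSum fun om _ => hE.wt hF om]
  refine tsum_congr fun x => ?_
  rw [← Finset.sum_mul, σ.sum_wt]

end Vale.Agent.P159.TM.H519
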