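import Vale.Agent.P159.TM.H519.Abs
import Vale.Agent.P159.TM.H682.Bind
import Vale.Agent.P159.TM.H77.PosF

/-!
Row IH. Exponential moments of the massive one copy system: `EM`, bare domination and fourth moments
of linear functionals which are a bounded flow plus a small site functional.
-/

open Finset

set_option linter.unusedSectionVars false
set_option linter.unusedDecidableInType false

namespace Vale.Agent.P159.TM.H519

open Vale.Agent.P159.TM.H60 Vale.Agent.P159.TM.H682 Vale.Agent.P159.TM.H77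
  Vale.Agent.P159.H353 Vale.Agent.P159.T1.H934

variable {V E : Type} [Fintype V] [DecidableEq V] [Fintype E] [DecidableEq E] {s t : E → V}
  {J : E → ℝ} {m : V → ℝ}

theorem tot_syM (hJ : ∀ e, 0 ≤ J e) (h : V → ℤ) :
    (syM s t J m hJ).tot h = (∏ e, wI (J e) (h (t e) - h (s e))) * ∏ v, gs m v (h v) := rfl

theorem D_syM (hJ : ∀ e, 0 ≤ J e) (h : V → ℤ) (v : V) : (syM s t J m hJ).D h v = (h v : ℝ) := rfl

theorem tot_bw (hJ : ∀ e, 0 ≤ J e) (h : V → ℤ) :
    (syM s t J m hJ).tot h = H708.bw (grd s t) J m ∅ h := Wm_gs s t m J h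

theorem em_syM (hJ : ∀ e, 0 ≤ J e) (hm : ∀ x, 0 < m x) : EM (syM s t J m hJ) := by
  intro K
  have hg : H708.Gr fun h : V → ℤ => Real.exp (∑ x, K * |(h x : ℝ)|) :=
    ⟨1, fun _ => K, fun h => by rw [abs_of_pos (Real.exp_pos _), one_mul]⟩
  have h5 := (H708.bw_summable (D := grd s t) (X := ∅) hJ hm hg).of_abs
  refine h5.congr fun h => ?_
  rw [tot_bw, nD, Finset.mul_sum]
  rfl

theorem summable_tot (hJ : ∀ e, 0 ≤ J e) (hm : ∀ x, 0 < m x) :
    Summable fun h => (syM s t J m hJ).tot h := by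
  have := em_syM (s := s) (t := t) hJ hm 0
  simpa using this

theorem tot_pos (hJ : ∀ e, 0 ≤ J e) (hm : ∀ x, 0 < m x) :
    0 < ∑' h, (syM s t J m hJ).tot h := by
  have h1 := H708.SS_one_pos (grd s t) hJ hm ∅
  unfold H708.SS at h1
  simp only [mul_one] at h1
  simpa only [tot_bw] using h1

/-- bare domination -/
theorem exp_lin_le (hJ : ∀ e, 0 ≤ J e) (hm : ∀ x, 0 < m x) (a : E → ℝ) (ρ : V → ℝ) :
    (Summable fun h : V → ℤ => (syM s t J m hJ).tot h *
        Real.exp (∑ e, a e * ((h (t e) : ℝ) - h (s e)) + ∑ x, ρ x * h x)) ∧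
    ∑' h : V → ℤ, (syM s t J m hJ).tot h *
        Real.exp (∑ e, a e * ((h (t e) : ℝ) - h (s e)) + ∑ x, ρ x * h x) ≤
      Real.exp (∑ e, J e * (Real.cosh (a e) - 1) + ∑ x, ρ x ^ 2 / (2 * m x)) *
        ∑' h : V → ℤ, (syM s t J m hJ).tot h := by
  have h1 := bare_le s t hJ ∅ (m := m) (fun x _ => hm x) a ρ
  have e1 : ∀ x (n : ℤ), sA ∅ m x n = gs m x n := fun x n => by
    unfold sA gs
    rw [if_neg (Finset.notMem_empty x)]
  simp only [e1, Finset.compl_empty] at h1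
  exact h1

/-- a linear functional of the heights: flow and site part -/
structure Lin (s t : E → V) (J : E → ℝ) (m : V → ℝ) (A : ℝ) (L : (V → ℤ) → ℝ) : Prop where
  ex : ∃ (a : E → ℝ) (ρ : V → ℝ), (∀ h, L h = ∑ e, a e * ((h (t e) : ℝ) - h (s e)) +
    ∑ x, ρ x * h x) ∧ ∑ e, J e * (Real.cosh (a e) - 1) + ∑ x, ρ x ^ 2 / (2 * m x) ≤ A

theorem pow4_le (x : ℝ) : x ^ 4 ≤ 24 * (Real.exp x + Real.exp (-x)) := by
  have h1 : ∀ y : ℝ, 0 ≤ y → y ^ 4 ≤ 24 * Real.exp y := by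
    intro y hy
    have := Real.pow_div_factorial_le_exp y hy 4
    rw [div_le_iff₀ (by positivity)] at this
    have e : ((4 : ℕ).factorial : ℝ) = 24 := by norm_num [Nat.factorial]
    rw [e] at this
    linarith
  rcases le_total 0 x with h | h
  · have := h1 x h
    have := Real.exp_pos (-x)
    linarith
  · have h2 := h1 (-x) (by linarith)
    have e : (-x) ^ 4 = x ^ 4 := by ring
    rw [e] at h2
    have := Real.exp_pos x
    linarith

/-- growth of linear functionals -/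
theorem Lin.gr (hJ : ∀ e, 0 ≤ J e) {A : ℝ} {L : (V → ℤ) → ℝ} (hL : Lin s t J m A L) :
    Gr (syM s t J m hJ) fun _ h => L h := by
  obtain ⟨a, ρ, h1, -⟩ := hL.ex
  have g : Gr (syM s t J m hJ) fun _ h => ∑ e, a e * ((h (t e) : ℝ) - h (s e)) +
      ∑ x, ρ x * h x := by
    refine Gr.add (Gr.sum univ fun e _ => (Gr.const _).mul ?_)
      (Gr.sum univ fun x _ => (Gr.const _).mul (Gr.Df x))
    have h2 := (Gr.Df (σ := syM s t J m hJ) (t e)).add
      ((Gr.const (σ := syM s t J m hJ) (-1)).mul (Gr.Df (s e)))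
    refine h2.mono fun om x => le_of_eq ?_
    rw [D_syM, D_syM]
    congr 1
    ring
  refine g.mono fun om h => ?_
  rw [h1]

theorem Gr.pow {σ : Sys V E ℤ} {F : Finset E → (V → ℤ) → ℝ} (hF : Gr σ F) (k : ℕ) :
    Gr σ fun om x => F om x ^ k := by
  induction k with
  | zero => simpa using Gr.const (σ := σ) 1
  | succ k ih =>
    refine (ih.mul hF).mono fun om x => ?_
    rw [pow_succ]

/-- fourth moments -/
theorem Lin.mom4 (hJ : ∀ e, 0 ≤ J e) (hm : ∀ x, 0 < m x) {A : ℝ} {L : (V → ℤ) → ℝ}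
    (hL : Lin s t J m A L) :
    ∑' h, (syM s t J m hJ).tot h * L h ^ 4 ≤
      48 * Real.exp A * ∑' h, (syM s t J m hJ).tot h := by
  have hgr := hL.gr hJ
  obtain ⟨a, ρ, h1, h2⟩ := hL.ex
  obtain ⟨s1, b1⟩ := exp_lin_le (s := s) (t := t) hJ hm a ρ
  obtain ⟨s2, b2⟩ := exp_lin_le (s := s) (t := t) hJ hm (fun e => -a e) (fun x => -ρ x)
  have e2 : ∀ h : V → ℤ, ∑ e, (fun e => -a e) e * ((h (t e) : ℝ) - h (s e)) +
      ∑ x, (fun x => -ρ x) x * (h x : ℝ) = -L h := by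
    intro h
    rw [h1, neg_add, ← Finset.sum_neg_distrib, ← Finset.sum_neg_distrib]
    simp only [neg_mul]
  simp only [e2] at s2 b2
  simp only [← h1] at s1 b1
  have e3 : ∑ e, J e * (Real.cosh ((fun e => -a e) e) - 1) +
      ∑ x, (fun x => -ρ x) x ^ 2 / (2 * m x) =
      ∑ e, J e * (Real.cosh (a e) - 1) + ∑ x, ρ x ^ 2 / (2 * m x) := by
    simp only [Real.cosh_neg, neg_sq]
  rw [e3] at b2
  set Z := ∑' h, (syM s t J m hJ).tot h with hZ
  have hZ0 : 0 ≤ Z := tsum_nonneg fun h => Sys.tot_nonneg _ h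
  have hK : Real.exp (∑ e, J e * (Real.cosh (a e) - 1) + ∑ x, ρ x ^ 2 / (2 * m x)) * Z ≤
      Real.exp A * Z := mul_le_mul_of_nonneg_right (Real.exp_le_exp.2 h2) hZ0
  have s4 : Summable fun h => (syM s t J m hJ).tot h * L h ^ 4 := by
    have h3 := (em_syM (s := s) (t := t) hJ hm).tot (hgr.pow 4) ∅
    refine h3.congr fun h => ?_
    rw [abs_of_nonneg (Even.pow_nonneg (by decide) _)]
  have s5 : Summable fun h => 24 * ((syM s t J m hJ).tot h * Real.exp (L h) +
      (syM s t J m hJ).tot h * Real.exp (-L h)) := (s1.add s2).mul_left 24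
  calc ∑' h, (syM s t J m hJ).tot h * L h ^ 4
      ≤ ∑' h, 24 * ((syM s t J m hJ).tot h * Real.exp (L h) +
        (syM s t J m hJ).tot h * Real.exp (-L h)) := by
        refine s4.tsum_le_tsum (fun h => ?_) s5
        have h3 := mul_le_mul_of_nonneg_left (pow4_le (L h)) (Sys.tot_nonneg (syM s t J m hJ) h)
        linarith
    _ = 24 * (∑' h, (syM s t J m hJ).tot h * Real.exp (L h) +
        ∑' h, (syM s t J m hJ).tot h * Real.exp (-L h)) := by
        rw [tsum_mul_left, s1.tsum_add s2]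
    _ ≤ 24 * (Real.exp A * Z + Real.exp A * Z) := by
        have := b1.trans hK
        have := b2.trans hK
        linarith
    _ = _ := by ring

theorem sum_pow4 {ι : Type*} (I : Finset ι) (f : ι → ℝ) :
    (∑ i ∈ I, f i) ^ 4 ≤ (I.card : ℝ) ^ 3 * ∑ i ∈ I, f i ^ 4 := by
  rcases I.eq_empty_or_nonempty with rfl | hI
  · simp
  have h1 := pow_sum_div_card_le_sum_pow (s := I) (f := fun i => |f i|)
    (fun i _ => abs_nonneg _) 3
  have hc : (0 : ℝ) < I.card := by exact_mod_cast hI.card_pos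
  rw [div_le_iff₀ (by positivity)] at h1
  have h2 : (∑ i ∈ I, f i) ^ 4 ≤ (∑ i ∈ I, |f i|) ^ 4 := by
    have h3 : |∑ i ∈ I, f i| ≤ ∑ i ∈ I, |f i| := Finset.abs_sum_le_sum_abs _ _
    calc (∑ i ∈ I, f i) ^ 4 = |∑ i ∈ I, f i| ^ 4 := by
          rw [← abs_pow, abs_of_nonneg (by positivity)]
      _ ≤ _ := pow_le_pow_left₀ (abs_nonneg _) h3 4
  refine h2.trans (h1.trans (le_of_eq ?_))
  rw [mul_comm]
  congr 1
  refine Finset.sum_congr rfl fun i _ => ?_
  show |f i| ^ (3 + 1) = _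
  exact Even.pow_abs (by decide) _

/-- fourth moment of a sum of linear functionals -/
theorem mom4_sum (hJ : ∀ e, 0 ≤ J e) (hm : ∀ x, 0 < m x) {ι : Type*} (I : Finset ι)
    {L : ι → (V → ℤ) → ℝ} {M : ℝ}
    (hg : ∀ i ∈ I, Gr (syM s t J m hJ) fun _ h => L i h)
    (h : ∀ i ∈ I, ∑' h, (syM s t J m hJ).tot h * L i h ^ 4 ≤
      M * ∑' h, (syM s t J m hJ).tot h) :
    ∑' h, (syM s t J m hJ).tot h * (∑ i ∈ I, L i h) ^ 4 ≤
      (I.card : ℝ) ^ 4 * M * ∑' h, (syM s t J m hJ).tot h := by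
  have hE := em_syM (s := s) (t := t) hJ hm
  have sm : ∀ i ∈ I, Summable fun h => (syM s t J m hJ).tot h * L i h ^ 4 := by
    intro i hi
    have h3 := hE.tot ((hg i hi).pow 4) ∅
    refine h3.congr fun h => ?_
    rw [abs_of_nonneg (Even.pow_nonneg (by decide) _)]
  have sl : Summable fun h => (syM s t J m hJ).tot h * (∑ i ∈ I, L i h) ^ 4 := by
    have h3 := hE.tot ((Gr.sum I hg).pow 4) ∅
    refine h3.congr fun h => ?_
    rw [abs_of_nonneg (Even.pow_nonneg (by decide) _)]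
  have sr : Summable fun h => (I.card : ℝ) ^ 3 * ∑ i ∈ I, (syM s t J m hJ).tot h * L i h ^ 4 :=
    (summable_sum sm).mul_left _
  calc ∑' h, (syM s t J m hJ).tot h * (∑ i ∈ I, L i h) ^ 4
      ≤ ∑' h, (I.card : ℝ) ^ 3 * ∑ i ∈ I, (syM s t J m hJ).tot h * L i h ^ 4 := by
        refine sl.tsum_le_tsum (fun h => ?_) sr
        rw [← Finset.mul_sum]
        have h3 := mul_le_mul_of_nonneg_left (sum_pow4 I fun i => L i h)
          (Sys.tot_nonneg (syM s t J m hJ) h)
        refine h3.trans (le_of_eq ?_)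
        ring
    _ = (I.card : ℝ) ^ 3 * ∑ i ∈ I, ∑' h, (syM s t J m hJ).tot h * L i h ^ 4 := by
        rw [tsum_mul_left, Summable.tsum_finsetSum sm]
    _ ≤ (I.card : ℝ) ^ 3 * ∑ _i ∈ I, M * ∑' h, (syM s t J m hJ).tot h :=
        mul_le_mul_of_nonneg_left (Finset.sum_le_sum h) (by positivity)
    _ = _ := by
        rw [Finset.sum_const, nsmul_eq_mul]
        ring

end Vale.Agent.P159.TM.H519
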