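import Vale.Agent.P159.TM.H519.Mom4
import Vale.Agent.P159.TM.H928.Child
import Vale.Agent.P159.TM.H179.Inst
import Vale.Agent.P159.TM.H312.Fat2

/-!
Row IH. The massive free box: variance and fourth moment of the sum of the heights over a block of
nine cells, probability of a large value.
-/

open Finset
open scoped ENNReal

set_option linter.unusedSectionVars false
set_option linter.unusedDecidableInType false

namespace Vale.Agent.P159.TM.H519

open Vale.Agent.P159.TM.H60 Vale.Agent.P159.TM.H682 Vale.Agent.P159.TM.H77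
  Vale.Agent.P159.H353 Vale.Agent.P159.T1.H934 Vale.Agent.P159.TM.SpecI
  Vale.Agent.P159.TM.H179 Vale.Agent.P159.TM.H928

variable {n : ℕ} [NeZero n]

/-- the height weight of the free box is the total weight of the one copy system -/
theorem wt_tot {b ε : ℝ} (hb : 0 ≤ b) (h : V n → ℤ) :
    SpecI.wt b (inn n) ∅ (full ε) h =
      (syM (sB (n := n)) tB (fun _ => b) (fun _ => ε) (fun _ => hb)).tot h := by
  classical
  rw [tot_syM]
  unfold SpecI.wt
  rw [if_pos (by simp), one_mul]
  congr 1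
  · rw [← Finset.prod_coe_sort (inn n) (fun e => wI b (h (tgt e) - h e.1))]
    rfl
  · unfold gs full
    rw [← Real.exp_sum]
    congr 1
    rw [neg_div, mul_div_right_comm, Finset.mul_sum, ← Finset.sum_neg_distrib]
    exact Finset.sum_congr rfl fun x _ => by ring

/-- the grid of the free box -/
theorem grid_box : IsGrid (sB (n := n)) tB (fun i j => ((i : ZMod n), (j : ZMod n))) n n := by
  have hc : ∀ i i' : ℕ, i < n → i' < n → (i : ZMod n) = (i' : ZMod n) → i = i' := by
    intro i i' hi hi' h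
    have := congrArg ZMod.val h
    rwa [ZMod.val_cast_of_lt hi, ZMod.val_cast_of_lt hi'] at this
  refine ⟨fun i j i' j' hi hj hi' hj' h => ?_, fun i j hi hj => ?_, fun i j hi hj => ?_⟩
  · exact ⟨hc _ _ hi hi' (Prod.ext_iff.1 h).1, hc _ _ hj hj' (Prod.ext_iff.1 h).2⟩
  · refine ⟨⟨(((i : ZMod n), (j : ZMod n)), false), ?_⟩, Or.inl ⟨rfl, ?_⟩⟩
    · rw [mem_inn]
      simp only [Bool.false_eq_true, if_false]
      rw [ZMod.val_cast_of_lt (by omega)]
      exact hi
    · unfold tB tgt
      simp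
  · refine ⟨⟨(((i : ZMod n), (j : ZMod n)), true), ?_⟩, Or.inl ⟨rfl, ?_⟩⟩
    · rw [mem_inn]
      simp only [if_true]
      rw [ZMod.val_cast_of_lt (by omega)]
      exact hj
    · unfold tB tgt
      simp

theorem av_avg (r : ℕ) (c : ℕ × ℕ) (h : V n → ℤ) :
    av (fun i j => ((i : ZMod n), (j : ZMod n))) (c.1 * r) (c.2 * r) r r h = SpecI.avg r c h := by
  unfold av SpecI.avg
  rw [pow_two]

/-- child average minus parent average -/
theorem lin_child {b : ℝ} (hb : 0 ≤ b) {m : V n → ℝ} {r : ℕ} (hr : 0 < r) {c : ℕ × ℕ}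
    (h1 : c.1 / 2 * (2 * r) + 2 * r ≤ n) (h2 : c.2 / 2 * (2 * r) + 2 * r ≤ n) :
    Lin (sB (n := n)) tB (fun _ => b) m (2 * b)
      (fun h => SpecI.avg r c h - SpecI.avg (2 * r) (c.1 / 2, c.2 / 2) h) := by
  obtain ⟨x, x1, x2, x3⟩ := flow_child (grid_box (n := n)) hr h1 h2 (decide (c.1 % 2 = 1))
    (decide (c.2 % 2 = 1))
  have hbit : ∀ a : ℕ, a / 2 * (2 * r) + (bif decide (a % 2 = 1) then r else 0) = a * r := by
    intro a
    have e1 : a / 2 * (2 * r) = (2 * (a / 2)) * r := by ring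
    have e2 := Nat.div_add_mod a 2
    rcases Nat.mod_two_eq_zero_or_one a with h | h
    · rw [h]
      simp only [zero_ne_one, decide_false, cond_false, add_zero]
      rw [e1]
      congr 1
      omega
    · rw [h]
      simp only [decide_true, cond_true]
      rw [e1]
      have e3 : a = 2 * (a / 2) + 1 := by omega
      rw [show 2 * (a / 2) * r + r = (2 * (a / 2) + 1) * r by ring, ← e3]
  refine ⟨x, 0, fun h => ?_, ?_⟩
  · have e := x1 h
    rw [hbit, hbit] at e
    rw [← av_avg, ← av_avg, e]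
    simp only [Pi.zero_apply, zero_mul, Finset.sum_const_zero, add_zero]
    refine Finset.sum_congr rfl fun e _ => ?_
    congr 1
    show ((h (tB e) - h (sB e) : ℤ) : ℝ) = _
    push_cast
    rfl
  · have hr1 : (1 : ℝ) / r ≤ 1 := by
      rw [div_le_one (by exact_mod_cast hr)]
      exact_mod_cast hr
    have hc : ∀ e, Real.cosh (x e) - 1 ≤ x e ^ 2 := by
      intro e
      have h3 := H179.cosh_sub_one_le (x e)
      have h4 : |x e| ≤ 1 := (x2 e).trans hr1
      have h5 : Real.cosh (x e) ≤ Real.cosh 1 := by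
        rw [Real.cosh_le_cosh, abs_one]
        exact h4
      have h6 : Real.cosh 1 ≤ 2 := by
        rw [Real.cosh_eq]
        have := Real.exp_one_lt_d9
        have h7 : Real.exp (-1) ≤ 1 := Real.exp_le_one_iff.2 (by norm_num)
        linarith
      nlinarith [sq_nonneg (x e)]
    simp only [Pi.zero_apply]
    rw [Finset.sum_eq_zero (s := (univ : Finset (V n))) (fun v _ => by simp), add_zero]
    calc ∑ e, b * (Real.cosh (x e) - 1) ≤ ∑ e, b * x e ^ 2 :=
          Finset.sum_le_sum fun e _ => mul_le_mul_of_nonneg_left (hc e) hb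
      _ = b * ∑ e, x e ^ 2 := by rw [Finset.mul_sum]
      _ ≤ b * 2 := mul_le_mul_of_nonneg_left x3 hb
      _ = 2 * b := by ring

/-- average over a cell -/
theorem lin_cell {b ε : ℝ} {r : ℕ} (hr : 1 ≤ r) {c : ℕ × ℕ}
    (h1 : c.1 < n / r) (h2 : c.2 < n / r) (hε : 0 < ε) :
    Lin (sB (n := n)) tB (fun _ => b) (fun _ => ε) (1 / (2 * ε * (r : ℝ) ^ 2))
      (fun h => SpecI.avg r c h) := by
  classical
  have hr0 : (0 : ℝ) < r := by exact_mod_cast hr
  refine ⟨0, fun x => if x ∈ cells n r c then 1 / (r : ℝ) ^ 2 else 0, fun h => ?_, ?_⟩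
  · simp only [Pi.zero_apply, zero_mul, Finset.sum_const_zero, zero_add, ite_mul]
    rw [Finset.sum_ite_mem, Finset.univ_inter, ← Finset.mul_sum, ← avg_eq hr h1 h2]
    field_simp
  · simp only [Pi.zero_apply, Real.cosh_zero, sub_self, mul_zero, Finset.sum_const_zero, zero_add]
    have e1 : ∀ x : V n, (if x ∈ cells n r c then 1 / (r : ℝ) ^ 2 else 0) ^ 2 / (2 * ε) =
        if x ∈ cells n r c then (1 / (r : ℝ) ^ 2) ^ 2 / (2 * ε) else 0 := by
      intro x
      split_ifs
      · rfl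
      · simp
    rw [Finset.sum_congr rfl fun x _ => e1 x, Finset.sum_ite_mem, Finset.univ_inter,
      Finset.sum_const, card_cells hr h1 h2, nsmul_eq_mul]
    push_cast
    refine le_of_eq ?_
    field_simp

/-- fourth moment of the average over a cell of side `l = ξ / 2^t` -/
theorem mom4_avg {b ε : ℝ} (hb : 0 ≤ b) (hε : 0 < ε) {l t : ℕ} (hl : 1 ≤ l)
    (hn : 2 ^ t * l ∣ n) {c : ℕ × ℕ} (h1 : c.1 < n / l) (h2 : c.2 < n / l) :
    ∑' h, (syM (sB (n := n)) tB (fun _ => b) (fun _ => ε) (fun _ => hb)).tot h *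
        SpecI.avg l c h ^ 4 ≤
      ((t : ℝ) + 1) ^ 4 * (48 * Real.exp (2 * b + 1 / (2 * ε * ((2 : ℝ) ^ t * l) ^ 2))) *
        ∑' h, (syM (sB (n := n)) tB (fun _ => b) (fun _ => ε) (fun _ => hb)).tot h := by
  -- the ancestors
  obtain ⟨q, hq⟩ := hn
  have hJ : ∀ e : EB n, 0 ≤ (fun _ => b : EB n → ℝ) e := fun _ => hb
  have hm : ∀ x : V n, 0 < (fun _ => ε : V n → ℝ) x := fun _ => hε
  have hnl : n / l = 2 ^ t * q := by
    rw [hq, show 2 ^ t * l * q = l * (2 ^ t * q) by ring]
    exact Nat.mul_div_cancel_left _ (by omega)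
  have hanc : ∀ a : ℕ, a < n / l → ∀ j ≤ t, a / 2 ^ j * (2 ^ j * l) + 2 ^ j * l ≤ n := by
    intro a ha j hj
    rw [hnl] at ha
    obtain ⟨d, rfl⟩ := Nat.exists_eq_add_of_le hj
    have e1 : a / 2 ^ j < 2 ^ d * q := by
      rw [Nat.div_lt_iff_lt_mul (by positivity)]
      calc a < 2 ^ (j + d) * q := ha
        _ = 2 ^ d * q * 2 ^ j := by ring
    calc a / 2 ^ j * (2 ^ j * l) + 2 ^ j * l = (a / 2 ^ j + 1) * (2 ^ j * l) := by ring
      _ ≤ (2 ^ d * q) * (2 ^ j * l) := Nat.mul_le_mul_right _ e1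
      _ = n := by rw [hq]; ring
  set A : ℕ → (V n → ℤ) → ℝ := fun j h => SpecI.avg (2 ^ j * l) (c.1 / 2 ^ j, c.2 / 2 ^ j) h with hA
  set L : ℕ → (V n → ℤ) → ℝ := fun j h => if j < t then A j h - A (j + 1) h else A t h with hL
  set M : ℝ := 2 * b + 1 / (2 * ε * ((2 : ℝ) ^ t * l) ^ 2) with hM
  have hl0 : (0 : ℝ) < l := by exact_mod_cast hl
  have hlin : ∀ j ∈ range (t + 1),
      Lin (sB (n := n)) tB (fun _ => b) (fun _ => ε) M (L j) := by
    intro j hj
    rw [mem_range] at hj
    by_cases hjt : j < t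
    · have hs : 0 < 2 ^ j * l := by positivity
      have e1 : ∀ a : ℕ, a / 2 ^ j / 2 = a / 2 ^ (j + 1) := by
        intro a
        rw [Nat.div_div_eq_div_mul, pow_succ]
      have e2 : 2 * (2 ^ j * l) = 2 ^ (j + 1) * l := by ring
      have h3 := lin_child (n := n) hb (m := fun _ => ε) hs (c := (c.1 / 2 ^ j, c.2 / 2 ^ j))
        (by
          simp only
          rw [e1, e2]
          exact hanc _ h1 _ hjt)
        (by
          simp only
          rw [e1, e2]
          exact hanc _ h2 _ hjt)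
      obtain ⟨a, ρ, h4, h5⟩ := h3.ex
      refine ⟨a, ρ, fun h => ?_, h5.trans ?_⟩
      · rw [← h4]
        simp only [hL, if_pos hjt, hA]
        rw [e1, e1, e2]
      · rw [hM]
        have : 0 ≤ 1 / (2 * ε * ((2 : ℝ) ^ t * l) ^ 2) := by positivity
        linarith
    · have hd : ∀ a : ℕ, a < n / l → a / 2 ^ t < n / (2 ^ t * l) := by
        intro a ha
        rw [hnl] at ha
        rw [hq, Nat.mul_div_cancel_left _ (by positivity), Nat.div_lt_iff_lt_mul (by positivity)]
        calc a < 2 ^ t * q := ha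
          _ = q * 2 ^ t := by ring
      have h3 := lin_cell (n := n) (b := b) (r := 2 ^ t * l) (by
          have : 0 < 2 ^ t * l := by positivity
          omega) (c := (c.1 / 2 ^ t, c.2 / 2 ^ t)) (hd _ h1) (hd _ h2) hε
      obtain ⟨a, ρ, h4, h5⟩ := h3.ex
      refine ⟨a, ρ, fun h => ?_, h5.trans ?_⟩
      · rw [← h4]
        simp only [hL, if_neg hjt, hA]
      · rw [hM]
        push_cast
        linarith
  have hsum : ∀ h, ∑ j ∈ range (t + 1), L j h = SpecI.avg l c h := by
    intro h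
    rw [Finset.sum_range_succ]
    have e1 : ∑ j ∈ range t, L j h = ∑ j ∈ range t, (A j h - A (j + 1) h) :=
      Finset.sum_congr rfl fun j hj => if_pos (mem_range.1 hj)
    rw [e1, Finset.sum_range_sub']
    simp only [hL, lt_irrefl, if_false]
    simp only [hA, pow_zero, one_mul, Nat.div_one]
    ring
  have h3 := mom4_sum hJ hm (range (t + 1)) (L := L) (M := 48 * Real.exp M)
    (fun j hj => (hlin j hj).gr hJ) (fun j hj => (hlin j hj).mom4 hJ hm)
  simp only [hsum, card_range] at h3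
  refine h3.trans (le_of_eq ?_)
  push_cast
  ring

end Vale.Agent.P159.TM.H519
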