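import Vale.Agent.P159.TM.H519.Pz
import Vale.Agent.P159.TM.H576.Fat

/-!
Row IH. Paley-Zygmund for the sum of the heights over the block of an interior cell of the massive
free box.
-/

open Finset
open scoped ENNReal

set_option linter.unusedSectionVars false
set_option linter.unusedDecidableInType false

namespace Vale.Agent.P159.TM.H519

open Vale.Agent.P159.TM.H60 Vale.Agent.P159.TM.H682 Vale.Agent.P159.TM.H77
  Vale.Agent.P159.H353 Vale.Agent.P159.TM.SpecI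
  Vale.Agent.P159.TM.H179 Vale.Agent.P159.TM.H576

section gen
variable {V E S : Type*} [Fintype V] [DecidableEq V] [Fintype E] [DecidableEq E] {σ : Sys V E S}

theorem sum_sq_G2 (hE : EM σ) (A : Finset V) :
    ∑' x, σ.tot x * (∑ u ∈ A, σ.D x u) ^ 2 = ∑ u ∈ A, ∑ v ∈ A, G2 σ u v := by
  have hs : ∀ u v, Summable fun x => σ.tot x * (σ.D x u * σ.D x v) := by
    intro u v
    have h1 := hE.tot (F := fun _ x => σ.D x u * σ.D x v) ((Gr.Df u).mul (Gr.Df v)) ∅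
    refine Summable.of_abs (h1.congr fun x => ?_)
    rw [abs_mul (σ.tot x), abs_of_nonneg (σ.tot_nonneg x)]
  have e1 : ∀ x, σ.tot x * (∑ u ∈ A, σ.D x u) ^ 2 =
      ∑ u ∈ A, ∑ v ∈ A, σ.tot x * (σ.D x u * σ.D x v) := by
    intro x
    rw [pow_two, Finset.sum_mul_sum, Finset.mul_sum]
    exact Finset.sum_congr rfl fun u _ => by rw [Finset.mul_sum]
  rw [tsum_congr e1, Summable.tsum_finsetSum fun u _ => summable_sum fun v _ => hs u v]
  refine Finset.sum_congr rfl fun u _ => ?_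
  rw [Summable.tsum_finsetSum fun v _ => hs u v]
  rfl

/-- the second moment of a sum of heights is increasing in the set -/
theorem sum_sq_mono (hE : EM σ) {A B : Finset V} (h : A ⊆ B) :
    ∑' x, σ.tot x * (∑ u ∈ A, σ.D x u) ^ 2 ≤ ∑' x, σ.tot x * (∑ u ∈ B, σ.D x u) ^ 2 := by
  rw [sum_sq_G2 hE, sum_sq_G2 hE]
  calc ∑ u ∈ A, ∑ v ∈ A, G2 σ u v ≤ ∑ u ∈ A, ∑ v ∈ B, G2 σ u v :=
        Finset.sum_le_sum fun u _ => Finset.sum_le_sum_of_subset_of_nonneg h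
          fun v _ _ => G2_nonneg hE u v
    _ ≤ _ := Finset.sum_le_sum_of_subset_of_nonneg h
          fun u _ _ => Finset.sum_nonneg fun v _ => G2_nonneg hE u v

theorem Ex_plain (F : (V → S) → ℝ≥0∞) :
    Ex σ (fun x _ => F x) = ∑' x, ENNReal.ofReal (σ.tot x) * F x := by
  unfold Ex
  refine tsum_congr fun x => ?_
  rw [← Finset.sum_mul, ← ENNReal.ofReal_sum_of_nonneg fun om _ => σ.wt_nonneg om x, σ.sum_wt]

end gen

section box
variable {n : ℕ} [NeZero n]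

theorem tot_neg {V E : Type} [Fintype V] [DecidableEq V] [Fintype E] [DecidableEq E]
    {s t : E → V} {J : E → ℝ} {m : V → ℝ} (hJ : ∀ e, 0 ≤ J e) (h : V → ℤ) :
    (syM s t J m hJ).tot (-h) = (syM s t J m hJ).tot h := by
  rw [tot_syM, tot_syM]
  congr 1
  · refine Finset.prod_congr rfl fun e _ => ?_
    rw [← wI_neg]
    congr 1
    simp only [Pi.neg_apply]
    ring
  · exact Finset.prod_congr rfl fun v _ => by rw [Pi.neg_apply, gs_neg]

/-- the constant of the fourth moment -/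
noncomputable def K1 (b v : ℝ) : ℝ := 9 ^ 4 * 48 * 16 * Real.exp (2 * b + 1 / 2) / v ^ 2

theorem K1_pos {b v : ℝ} (hv : 0 < v) : 0 < K1 b v := by unfold K1; positivity

/-- fourth moment of the sum over a block -/
theorem mom4_blk {b ε : ℝ} (hb : 0 ≤ b) (hε : 0 < ε) {l t : ℕ} (hl : 1 ≤ l)
    (hn : 2 ^ t * l ∣ n) (j : JB n l) (h1 : ε * ((2 : ℝ) ^ t * l) ^ 2 = 1) :
    ∑' h, (syM (sB (n := n)) tB (fun _ => b) (fun _ => ε) (fun _ => hb)).tot h *
        (∑ y ∈ blk n l j.1, (h y : ℝ)) ^ 4 ≤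
      (l : ℝ) ^ 8 * (9 ^ 4 * (((t : ℝ) + 1) ^ 4 * (48 * Real.exp (2 * b + 1 / 2)))) *
        ∑' h, (syM (sB (n := n)) tB (fun _ => b) (fun _ => ε) (fun _ => hb)).tot h := by
  have hJ : ∀ e : EB n, 0 ≤ (fun _ => b : EB n → ℝ) e := fun _ => hb
  have hm : ∀ x : V n, 0 < (fun _ => ε : V n → ℝ) x := fun _ => hε
  have hi := j.int
  have hln : l ∣ n := (Dvd.intro_left _ rfl).trans hn
  have h2 : ∀ γ ∈ nine j.1, ∑' h,
      (syM (sB (n := n)) tB (fun _ => b) (fun _ => ε) (fun _ => hb)).tot h * SpecI.avg l γ h ^ 4 ≤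
      (((t : ℝ) + 1) ^ 4 * (48 * Real.exp (2 * b + 1 / 2))) *
        ∑' h, (syM (sB (n := n)) tB (fun _ => b) (fun _ => ε) (fun _ => hb)).tot h := by
    intro γ hγ
    have h3 := mom4_avg (n := n) hb hε hl hn (nine_lt hi hγ).1 (nine_lt hi hγ).2
    have e : 1 / (2 * ε * ((2 : ℝ) ^ t * l) ^ 2) = 1 / 2 := by
      rw [mul_assoc, h1, mul_one]
    rwa [e] at h3
  have hg : ∀ γ ∈ nine j.1, Gr (syM (sB (n := n)) tB (fun _ => b) (fun _ => ε) (fun _ => hb))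
      fun _ h => SpecI.avg l γ h := by
    intro γ hγ
    exact (lin_cell (n := n) (b := b) hl (nine_lt hi hγ).1 (nine_lt hi hγ).2 hε).gr hJ
  have h3 := mom4_sum hJ hm (nine j.1) hg h2
  rw [card_nine hi.1 hi.2.2.1] at h3
  have e2 : ∀ h : V n → ℤ,
      (syM (sB (n := n)) tB (fun _ => b) (fun _ => ε) (fun _ => hb)).tot h *
        (∑ y ∈ blk n l j.1, (h y : ℝ)) ^ 4 = (l : ℝ) ^ 8 *
      ((syM (sB (n := n)) tB (fun _ => b) (fun _ => ε) (fun _ => hb)).tot h *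
        (∑ γ ∈ nine j.1, SpecI.avg l γ h) ^ 4) := by
    intro h
    rw [blk_avg hl hi]
    ring
  rw [tsum_congr e2, tsum_mul_left, mul_assoc ((l : ℝ) ^ 8)]
  refine mul_le_mul_of_nonneg_left ?_ (by positivity)
  push_cast at h3
  exact h3

/-- **Paley-Zygmund for a block** -/
theorem pz_box {b ε v : ℝ} (hb : 0 ≤ b) (hε : 0 < ε) (hv : 0 < v) {l t : ℕ} (hl : 1 ≤ l)
    (ht : 1 ≤ t) (hn : 2 ^ t * l ∣ n) (j : JB n l) (h1 : ε * ((2 : ℝ) ^ t * l) ^ 2 = 1)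
    (hvar : v * t * ∑' h, (syM (sB (n := n)) tB (fun _ => b) (fun _ => ε) (fun _ => hb)).tot h ≤
      ∑' h, (syM (sB (n := n)) tB (fun _ => b) (fun _ => ε) (fun _ => hb)).tot h *
        SpecI.avg l j.1 h ^ 2) :
    ENNReal.ofReal (1 / (8 * (K1 b v * (t : ℝ) ^ 2))) *
        Ex (syM (sB (n := n)) tB (fun _ => b) (fun _ => ε) (fun _ => hb)) (fun _ _ => 1) ≤
      Ex (syM (sB (n := n)) tB (fun _ => b) (fun _ => ε) (fun _ => hb))
        (fun h _ => if (l : ℝ) ^ 2 * Real.sqrt (v * t / 2) ≤ ∑ x ∈ blk n l j.1, (h x : ℝ)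
          then 1 else 0) := by
  classical
  have hJ : ∀ e : EB n, 0 ≤ (fun _ => b : EB n → ℝ) e := fun _ => hb
  have hm : ∀ x : V n, 0 < (fun _ => ε : V n → ℝ) x := fun _ => hε
  set σ := syM (sB (n := n)) tB (fun _ => b) (fun _ => ε) (fun _ => hb) with hσ
  have hE : EM σ := em_syM hJ hm
  have hs : Summable fun h => σ.tot h := summable_tot hJ hm
  set Z := ∑' h, σ.tot h with hZ
  have hZ0 : 0 < Z := tot_pos hJ hm
  have hl0 : (0 : ℝ) < l := by exact_mod_cast hl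
  have ht0 : (1 : ℝ) ≤ t := by exact_mod_cast ht
  have hi := j.int
  have hK := K1_pos (b := b) hv
  have hint : ∀ γ : ℕ × ℕ, Int3 n l γ → γ.1 < n / l ∧ γ.2 < n / l := by
    intro γ h
    obtain ⟨a1, a2, a3, a4⟩ := h
    omega
  -- second moment
  have hsub : cells n l j.1 ⊆ blk n l j.1 := by
    intro y hy
    rw [mem_cells] at hy
    unfold blk
    rw [mem_filter]
    unfold cel at hy
    rw [← hy]
    refine ⟨mem_univ _, ?_⟩
    simp only
    omega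
  have m2 : (v * t * (l : ℝ) ^ 4) * Z ≤
      ∑' h, σ.tot h * (∑ y ∈ blk n l j.1, (h y : ℝ)) ^ 2 := by
    refine le_trans ?_ (sum_sq_mono hE hsub)
    have e : ∀ h : V n → ℤ, σ.tot h * (∑ u ∈ cells n l j.1, σ.D h u) ^ 2 =
        (l : ℝ) ^ 4 * (σ.tot h * SpecI.avg l j.1 h ^ 2) := by
      intro h
      have e1 : ∑ u ∈ cells n l j.1, σ.D h u = SpecI.avg l j.1 h * (l : ℝ) ^ 2 :=
        (avg_eq hl (hint _ hi).1 (hint _ hi).2 h).symm
      rw [e1]
      ring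
    rw [tsum_congr e, tsum_mul_left]
    calc v * t * (l : ℝ) ^ 4 * Z = (l : ℝ) ^ 4 * (v * t * Z) := by ring
      _ ≤ _ := mul_le_mul_of_nonneg_left hvar (by positivity)
  have m4 : ∑' h, σ.tot h * (∑ y ∈ blk n l j.1, (h y : ℝ)) ^ 4 ≤
      (K1 b v * (t : ℝ) ^ 2 * (v * t * (l : ℝ) ^ 4) ^ 2) * Z := by
    refine (mom4_blk hb hε hl hn j h1).trans (mul_le_mul_of_nonneg_right ?_ hZ0.le)
    have h4 : ((t : ℝ) + 1) ^ 4 ≤ 16 * (t : ℝ) ^ 4 := by
      have : (t : ℝ) + 1 ≤ 2 * t := by linarith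
      calc ((t : ℝ) + 1) ^ 4 ≤ (2 * t) ^ 4 := pow_le_pow_left₀ (by positivity) this 4
        _ = _ := by ring
    have e2 : K1 b v * (t : ℝ) ^ 2 * (v * t * (l : ℝ) ^ 4) ^ 2 =
        (l : ℝ) ^ 8 * (9 ^ 4 * ((16 * (t : ℝ) ^ 4) * (48 * Real.exp (2 * b + 1 / 2)))) := by
      unfold K1
      field_simp
    rw [e2]
    gcongr
  -- summability
  have hGs : Gr σ fun _ h => ∑ y ∈ blk n l j.1, (h y : ℝ) := Gr.sum _ fun y _ => Gr.Df y
  have s2 : Summable fun h : V n → ℤ => σ.tot h * (∑ y ∈ blk n l j.1, (h y : ℝ)) ^ 2 := by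
    refine (hE.tot (hGs.pow 2) ∅).congr fun h => ?_
    rw [abs_of_nonneg (Even.pow_nonneg (by decide) _)]
  have s4 : Summable fun h : V n → ℤ => σ.tot h * (∑ y ∈ blk n l j.1, (h y : ℝ)) ^ 4 := by
    refine (hE.tot (hGs.pow 4) ∅).congr fun h => ?_
    rw [abs_of_nonneg (Even.pow_nonneg (by decide) _)]
  have z1 : ∑' h : V n → ℤ, ENNReal.ofReal (σ.tot h) = ENNReal.ofReal Z :=
    (ENNReal.ofReal_tsum_of_nonneg (fun h => σ.tot_nonneg h) hs).symm
  have z2 : ∀ k : ℕ, (∀ h : V n → ℤ, 0 ≤ (∑ y ∈ blk n l j.1, (h y : ℝ)) ^ k) →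
      (Summable fun h : V n → ℤ => σ.tot h * (∑ y ∈ blk n l j.1, (h y : ℝ)) ^ k) →
      ∑' h : V n → ℤ, ENNReal.ofReal (σ.tot h) *
        ENNReal.ofReal ((∑ y ∈ blk n l j.1, (h y : ℝ)) ^ k) =
      ENNReal.ofReal (∑' h : V n → ℤ, σ.tot h * (∑ y ∈ blk n l j.1, (h y : ℝ)) ^ k) := by
    intro k h0 hk
    rw [ENNReal.ofReal_tsum_of_nonneg (fun h => mul_nonneg (σ.tot_nonneg h) (h0 h)) hk]
    exact tsum_congr fun h => (ENNReal.ofReal_mul (σ.tot_nonneg h)).symm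
  have key := H312.pz (fun h : V n → ℤ => ENNReal.ofReal (σ.tot h))
    (fun h => ∑ y ∈ blk n l j.1, (h y : ℝ)) (Equiv.neg _)
    (fun h => by
      show ENNReal.ofReal (σ.tot (-h)) = _
      rw [hσ, tot_neg])
    (fun h => by
      show ∑ y ∈ blk n l j.1, (((-h) y : ℤ) : ℝ) = _
      rw [← Finset.sum_neg_distrib]
      exact Finset.sum_congr rfl fun y _ => by simp)
    (v := v * t * (l : ℝ) ^ 4) (K := K1 b v * (t : ℝ) ^ 2) (by positivity) (by positivity)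
    (by rw [z1]; exact ENNReal.ofReal_ne_top)
    (by
      rw [z1, z2 2 (fun h => sq_nonneg _) s2, ← ENNReal.ofReal_mul (by positivity)]
      exact ENNReal.ofReal_le_ofReal m2)
    (by
      rw [z1, z2 4 (fun h => by positivity) s4, ← ENNReal.ofReal_mul (by positivity)]
      exact ENNReal.ofReal_le_ofReal m4)
  rw [Ex_plain, Ex_plain]
  simp only [mul_one]
  refine key.trans (le_of_eq ?_)
  have e5 : Real.sqrt (v * t * (l : ℝ) ^ 4 / 2) = (l : ℝ) ^ 2 * Real.sqrt (v * t / 2) := by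
    have : v * t * (l : ℝ) ^ 4 / 2 = ((l : ℝ) ^ 2) ^ 2 * (v * t / 2) := by ring
    rw [this, Real.sqrt_mul (by positivity), Real.sqrt_sq (by positivity)]
  rw [e5]

end box

end Vale.Agent.P159.TM.H519
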